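import Mathlib

/-! Elementary symmetric polynomials of square-zero elements in characteristic two. -/

namespace P346

variable {S : Type*} [CommRing S]

/-- elementary symmetric polynomial of a list -/
def E : List S → ℕ → S
  | _, 0 => 1
  | [], _ + 1 => 0
  | x :: L, k + 1 => E L (k + 1) + x * E L k

@[simp] lemma E_zero (L : List S) : E L 0 = 1 := by cases L <;> rfl
@[simp] lemma E_nil_succ (k : ℕ) : E ([] : List S) (k + 1) = 0 := rfl
@[simp] lemma E_cons_succ (x : S) (L : List S) (k : ℕ) :
    E (x :: L) (k + 1) = E L (k + 1) + x * E L k := rfl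

lemma E_one (L : List S) : E L 1 = L.sum := by
  induction L with
  | nil => rfl
  | cons x L ih =>
    rw [show (1 : ℕ) = 0 + 1 from rfl, E_cons_succ, ih, List.sum_cons]
    simp [add_comm]

lemma sum_mul_E (L : List S) (hL : ∀ x ∈ L, x * x = 0) (k : ℕ) :
    L.sum * E L k = ((k : S) + 1) * E L (k + 1) := by
  induction L generalizing k with
  | nil => simp
  | cons x L ih =>
    have hx : x * x = 0 := hL x (by simp)
    have ih' := ih (fun y hy => hL y (by simp [hy]))
    cases k with
    | zero =>
      have := ih' 0
      simp only [E_zero, mul_one, Nat.cast_zero, zero_add, one_mul] at this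
      simp only [List.sum_cons, E_zero, mul_one, Nat.cast_zero, zero_add, one_mul, E_cons_succ]
      rw [this]; simp [add_comm]
    | succ k =>
      have h1 := ih' (k + 1)
      have h0 := ih' k
      simp only [List.sum_cons, E_cons_succ, Nat.cast_add, Nat.cast_one] at *
      linear_combination h1 + x * h0 + E L k * hx

lemma sum_sq (h2 : (2 : S) = 0) (L : List S) (hL : ∀ x ∈ L, x * x = 0) :
    L.sum * L.sum = 0 := by
  induction L with
  | nil => simp
  | cons x L ih =>
    have hx : x * x = 0 := hL x (by simp)
    have ih' := ih (fun y hy => hL y (by simp [hy]))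
    simp only [List.sum_cons]
    linear_combination hx + ih' + x * L.sum * h2

/-- pairing of a list -/
def Zl : List S → List S
  | x :: y :: L => ((x + L.sum) * (y + L.sum)) :: Zl L
  | _ => []

lemma E_two_mul (h2 : (2 : S) = 0) : ∀ (L : List S) (_ : ∀ x ∈ L, x * x = 0) (c : ℕ),
    E L (2 * c) = E (Zl L) c
  | [], _, c => by cases c <;> simp [Zl, Nat.mul_add]
  | [x], _, c => by cases c <;> simp [Zl, Nat.mul_add]
  | x :: y :: L, hL, c => by
    have hL' : ∀ x ∈ L, x * x = 0 := fun z hz => hL z (by simp [hz])
    cases c with
    | zero => simp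
    | succ c =>
      have ih1 := E_two_mul h2 L hL' (c + 1)
      have ih0 := E_two_mul h2 L hL' c
      have h3 := sum_mul_E L hL' (2 * c)
      have h4 := sum_sq h2 L hL'
      rw [show 2 * (c + 1) = (2 * c + 1) + 1 from by ring] at *
      simp only [Zl, E_cons_succ]
      rw [← ih1, ← ih0]
      push_cast at h3
      have h5 : ((2 : S) * c) * E L (2 * c + 1) = 0 := by rw [h2]; ring
      linear_combination (-(x + y)) * h3 - E L (2 * c) * h4 - (x + y) * h5

end P346
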