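import Vale.Agent.P346.Def

/-! Razborov approximation of `ΣΠΣΠΣ` circuits over `ZMod 2`. -/

open MvPolynomial

namespace P346

lemma zmod2_cases (a : ZMod 2) : a = 0 ∨ a = 1 := by
  revert a; decide

lemma zmod2_ne (a b : ZMod 2) : a ≠ b ↔ a = b + 1 := by
  revert a b; decide

/-- one random test -/
def tst {N : ℕ} (G : Finset (Fin N)) (t : Fin N → ZMod 2) (R : Fin N → ZMod 2) : ZMod 2 :=
  1 + ∑ g ∈ G, R g * (1 + t g)

lemma tst_one {N : ℕ} (G : Finset (Fin N)) (t : Fin N → ZMod 2) (R : Fin N → ZMod 2)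
    (h : ∀ g ∈ G, t g = 1) : tst G t R = 1 := by
  rw [tst, Finset.sum_eq_zero, add_zero]
  intro g hg
  rw [h g hg]
  have : (1 : ZMod 2) + 1 = 0 := by decide
  rw [this, mul_zero]

lemma card_tst {N : ℕ} (G : Finset (Fin N)) (t : Fin N → ZMod 2) (g0 : Fin N) (hg0 : g0 ∈ G)
    (h0 : t g0 = 0) :
    (Finset.univ.filter fun R : Fin N → ZMod 2 => tst G t R ≠ 0).card * 2 =
      Fintype.card (Fin N → ZMod 2) := by
  classical
  have hflip : ∀ R : Fin N → ZMod 2, tst G t (R + Pi.single g0 1) = tst G t R + 1 := by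
    intro R
    simp only [tst, Pi.add_apply, add_mul, Finset.sum_add_distrib]
    have : ∑ x ∈ G, (Pi.single g0 1 : Fin N → ZMod 2) x * (1 + t x) = 1 := by
      rw [Finset.sum_eq_single g0]
      · simp [h0]
      · intro b _ hb
        simp [Pi.single_eq_of_ne hb]
      · intro h; exact absurd hg0 h
    rw [this, add_assoc]
  have h1 : (Finset.univ.filter fun R : Fin N → ZMod 2 => tst G t R ≠ 0).card =
      (Finset.univ.filter fun R : Fin N → ZMod 2 => ¬ tst G t R ≠ 0).card := by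
    refine Finset.card_equiv (Equiv.addRight (Pi.single g0 1)) fun R => ?_
    simp only [Finset.mem_filter, Finset.mem_univ, true_and, Equiv.coe_addRight, hflip]
    generalize tst G t R = a
    revert a; decide
  have h2 := Finset.card_filter_add_card_filter_not (s := Finset.univ)
    (fun R : Fin N → ZMod 2 => tst G t R ≠ 0)
  rw [← h1] at h2
  rw [mul_two, h2, Finset.card_univ]

lemma list_prod_eq {N : ℕ} (G : List (Fin N)) (t : Fin N → ZMod 2) :
    (G.map t).prod ≠ 0 ↔ ∀ g ∈ G, t g ≠ 0 := by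
  rw [Ne, List.prod_eq_zero_iff]
  simp

/-- a product gate is computed correctly by most of the random tests -/
lemma and_count {N : ℕ} (ℓ : ℕ) (G : List (Fin N)) (t : Fin N → ZMod 2) :
    (Finset.univ.filter fun R : Fin ℓ → Fin N → ZMod 2 =>
      ∏ k, tst G.toFinset t (R k) ≠ (G.map t).prod).card * 2 ^ ℓ ≤
      Fintype.card (Fin ℓ → Fin N → ZMod 2) := by
  classical
  by_cases h : ∀ g ∈ G, t g = 1
  · have h1 : (G.map t).prod = 1 := by
      apply List.prod_eq_one
      intro x hx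
      obtain ⟨g, hg, rfl⟩ := List.mem_map.1 hx
      exact h g hg
    have h2 : ∀ R : Fin ℓ → Fin N → ZMod 2, ∏ k, tst G.toFinset t (R k) = (G.map t).prod := by
      intro R
      rw [h1]
      exact Finset.prod_eq_one fun k _ => tst_one _ _ _ fun g hg => h g (List.mem_toFinset.1 hg)
    simp [h2]
  · push Not at h
    obtain ⟨g0, hg0, hne⟩ := h
    have h0 : t g0 = 0 := (zmod2_cases _).resolve_right hne
    have hP : (G.map t).prod = 0 := by
      by_contra hc
      exact (list_prod_eq G t).1 hc g0 hg0 h0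
    have h1 := card_tst G.toFinset t g0 (List.mem_toFinset.2 hg0) h0
    have h2 : (Finset.univ.filter fun R : Fin ℓ → Fin N → ZMod 2 =>
        ∏ k, tst G.toFinset t (R k) ≠ (G.map t).prod) =
        Fintype.piFinset fun _ : Fin ℓ =>
          Finset.univ.filter fun R : Fin N → ZMod 2 => tst G.toFinset t R ≠ 0 := by
      ext R
      simp only [Finset.mem_filter, Finset.mem_univ, true_and, Fintype.mem_piFinset, hP,
        Finset.prod_ne_zero_iff, forall_true_left]
    rw [h2, Fintype.card_piFinset, Finset.prod_const, Finset.card_univ, Fintype.card_fin,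
      ← mul_pow, h1]
    exact le_of_eq (by rw [Fintype.card_fun (α := Fin ℓ), Fintype.card_fin])

section circ

variable {V σ : Type} (C : Circ (ZMod 2) V) (ρ : V → MvPolynomial σ (ZMod 2)) {ℓ : ℕ}
  (R2 : Fin ℓ → Fin C.n1 → ZMod 2) (R4 : Fin ℓ → Fin C.n3 → ZMod 2)

/-- approximation of the lower product gates -/
noncomputable def a2 (i : Fin C.n2) : MvPolynomial σ (ZMod 2) :=
  ∏ k, (1 + ∑ g ∈ (C.prod2 i).toFinset, MvPolynomial.C (R2 k g) * (1 + C.v1 ρ g))

noncomputable def a3 (i : Fin C.n3) : MvPolynomial σ (ZMod 2) :=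
  ((C.sum3 i).map fun p => p.1 • a2 C ρ R2 p.2).sum

/-- approximation of the upper product gates -/
noncomputable def a4 (i : Fin C.n4) : MvPolynomial σ (ZMod 2) :=
  ∏ k, (1 + ∑ g ∈ (C.prod4 i).toFinset, MvPolynomial.C (R4 k g) * (1 + a3 C ρ R2 g))

noncomputable def a5 : MvPolynomial σ (ZMod 2) :=
  (C.out.map fun p => p.1 • a4 C ρ R2 R4 p.2).sum

lemma totalDegree_list_sum_le {ι : Type} (L : List (ZMod 2 × ι)) (f : ι → MvPolynomial σ (ZMod 2))
    (d : ℕ) (h : ∀ i, (f i).totalDegree ≤ d) :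
    (L.map fun p => p.1 • f p.2).sum.totalDegree ≤ d := by
  induction L with
  | nil => simp
  | cons p L ih =>
    rw [List.map_cons, List.sum_cons]
    exact (totalDegree_add _ _).trans
      (max_le ((totalDegree_smul_le _ _).trans (h _)) ih)

lemma totalDegree_tst_le {N : ℕ} (G : Finset (Fin N)) (f : Fin N → MvPolynomial σ (ZMod 2))
    (R : Fin ℓ → Fin N → ZMod 2) (d : ℕ) (h : ∀ i, (f i).totalDegree ≤ d) :
    (∏ k, (1 + ∑ g ∈ G, MvPolynomial.C (R k g) * (1 + f g))).totalDegree ≤ ℓ * d := by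
  refine (totalDegree_finsetProd _ _).trans ?_
  refine (Finset.sum_le_card_nsmul _ _ d fun k _ => ?_).trans (by simp)
  refine (totalDegree_add _ _).trans (max_le (by simp) ?_)
  refine totalDegree_finsetSum_le fun g _ => ?_
  refine (totalDegree_mul _ _).trans ?_
  rw [totalDegree_C, zero_add]
  exact (totalDegree_add _ _).trans (max_le (by simp) (h g))

lemma totalDegree_a5 (hρ : ∀ v, (ρ v).totalDegree ≤ 1) :
    (a5 C ρ R2 R4).totalDegree ≤ ℓ * ℓ := by
  have h0 : ∀ i, (C.v0 ρ i).totalDegree ≤ 1 := by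
    intro i
    unfold Circ.v0
    split
    · exact hρ _
    · rw [MvPolynomial.algebraMap_eq, totalDegree_C]; exact Nat.zero_le _
  have h1 : ∀ i, (C.v1 ρ i).totalDegree ≤ 1 := fun i =>
    totalDegree_list_sum_le _ _ 1 h0
  have h2 : ∀ i, (a2 C ρ R2 i).totalDegree ≤ ℓ := fun i =>
    (totalDegree_tst_le (C.prod2 i).toFinset (C.v1 ρ) R2 1 h1).trans (by simp)
  have h3 : ∀ i, (a3 C ρ R2 i).totalDegree ≤ ℓ := fun i => totalDegree_list_sum_le _ _ ℓ h2
  have h4 : ∀ i, (a4 C ρ R2 R4 i).totalDegree ≤ ℓ * ℓ := fun i =>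
    totalDegree_tst_le (C.prod4 i).toFinset (a3 C ρ R2) R4 ℓ h3
  exact totalDegree_list_sum_le _ _ _ h4

lemma eval_tst {N : ℕ} (G : Finset (Fin N)) (f : Fin N → MvPolynomial σ (ZMod 2))
    (R : Fin ℓ → Fin N → ZMod 2) (y : σ → ZMod 2) :
    eval y (∏ k, (1 + ∑ g ∈ G, MvPolynomial.C (R k g) * (1 + f g))) =
      ∏ k, tst G (fun g => eval y (f g)) (R k) := by
  rw [map_prod]
  refine Finset.prod_congr rfl fun k _ => ?_
  simp [tst, map_sum]

lemma eval_list_sum {ι : Type} (L : List (ZMod 2 × ι)) (f g : ι → MvPolynomial σ (ZMod 2))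
    (y : σ → ZMod 2) (h : ∀ i, eval y (f i) = eval y (g i)) :
    eval y (L.map fun p => p.1 • f p.2).sum = eval y (L.map fun p => p.1 • g p.2).sum := by
  induction L with
  | nil => simp
  | cons p L ih => simp [smul_eval, h, ih]

lemma eval_list_prod {ι : Type} (L : List ι) (f : ι → MvPolynomial σ (ZMod 2))
    (y : σ → ZMod 2) : eval y (L.map f).prod = (L.map fun i => eval y (f i)).prod := by
  rw [map_list_prod, List.map_map]; rfl

/-- some product gate is computed wrongly at `y` -/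
def Bad2 (y : σ → ZMod 2) (i : Fin C.n2) : Prop :=
  ∏ k, tst (C.prod2 i).toFinset (fun g => eval y (C.v1 ρ g)) (R2 k) ≠
    ((C.prod2 i).map fun g => eval y (C.v1 ρ g)).prod

def Bad4 (y : σ → ZMod 2) (i : Fin C.n4) : Prop :=
  ∏ k, tst (C.prod4 i).toFinset (fun g => eval y (C.v3 ρ g)) (R4 k) ≠
    ((C.prod4 i).map fun g => eval y (C.v3 ρ g)).prod

lemma eval_a5 (y : σ → ZMod 2) (h2 : ∀ i, ¬ Bad2 C ρ R2 y i) (h4 : ∀ i, ¬ Bad4 C ρ R4 y i) :
    eval y (a5 C ρ R2 R4) = eval y (C.val ρ) := by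
  have e2 : ∀ i, eval y (a2 C ρ R2 i) = eval y (C.v2 ρ i) := fun i => by
    rw [a2, eval_tst, Circ.v2, eval_list_prod]
    exact not_not.1 (h2 i)
  have e3 : ∀ i, eval y (a3 C ρ R2 i) = eval y (C.v3 ρ i) := fun i =>
    eval_list_sum _ _ _ _ e2
  have e4 : ∀ i, eval y (a4 C ρ R2 R4 i) = eval y (C.v4 ρ i) := fun i => by
    rw [a4, eval_tst, Circ.v4, eval_list_prod]
    simp only [e3]
    exact not_not.1 (h4 i)
  exact eval_list_sum _ _ _ _ e4

/-- every `ΣΠΣΠΣ` circuit over `ZMod 2`, with polynomials of degree at most one substituted for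
the variables, agrees with a polynomial of degree at most `ℓ ^ 2` at most points -/
theorem approx [Fintype σ] [DecidableEq σ] (ℓ : ℕ) (hρ : ∀ v, (ρ v).totalDegree ≤ 1) :
    ∃ g : MvPolynomial σ (ZMod 2), g.totalDegree ≤ ℓ * ℓ ∧
      (Finset.univ.filter fun y : σ → ZMod 2 => eval y (C.val ρ) ≠ eval y g).card * 2 ^ ℓ ≤
        (C.n2 + C.n4) * Fintype.card (σ → ZMod 2) := by
  classical
  by_contra hcon
  push Not at hcon
  set Y := σ → ZMod 2
  let Ω2 := Fin ℓ → Fin C.n1 → ZMod 2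
  let Ω4 := Fin ℓ → Fin C.n3 → ZMod 2
  -- for every point few bad random strings
  have hpt : ∀ y : Y, (Finset.univ.filter fun ω : Ω2 × Ω4 =>
      eval y (C.val ρ) ≠ eval y (a5 C ρ ω.1 ω.2)).card * 2 ^ ℓ ≤
      (C.n2 + C.n4) * Fintype.card (Ω2 × Ω4) := by
    intro y
    have hsub : (Finset.univ.filter fun ω : Ω2 × Ω4 =>
        eval y (C.val ρ) ≠ eval y (a5 C ρ ω.1 ω.2)) ⊆
        (Finset.univ.biUnion fun i : Fin C.n2 =>
          (Finset.univ.filter fun R2 : Ω2 => Bad2 C ρ R2 y i) ×ˢ (Finset.univ : Finset Ω4)) ∪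
        (Finset.univ.biUnion fun i : Fin C.n4 =>
          (Finset.univ : Finset Ω2) ×ˢ (Finset.univ.filter fun R4 : Ω4 => Bad4 C ρ R4 y i)) := by
      intro ω hω
      simp only [Finset.mem_filter, Finset.mem_univ, true_and] at hω
      by_contra hn
      simp only [Finset.mem_union, Finset.mem_biUnion, Finset.mem_univ, true_and,
        Finset.mem_product, Finset.mem_filter, and_true, not_or, not_exists] at hn
      exact hω (eval_a5 C ρ ω.1 ω.2 y hn.1 hn.2).symm
    have hc2 : ∀ i : Fin C.n2, (Finset.univ.filter fun R2 : Ω2 => Bad2 C ρ R2 y i).card * 2 ^ ℓ ≤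
        Fintype.card Ω2 := by
      intro i
      unfold Bad2
      convert and_count ℓ (C.prod2 i) fun g => eval y (C.v1 ρ g)
    have hc4 : ∀ i : Fin C.n4, (Finset.univ.filter fun R4 : Ω4 => Bad4 C ρ R4 y i).card * 2 ^ ℓ ≤
        Fintype.card Ω4 := by
      intro i
      unfold Bad4
      convert and_count ℓ (C.prod4 i) fun g => eval y (C.v3 ρ g)
    have hb2 : ∀ i : Fin C.n2, ((Finset.univ.filter fun R2 : Ω2 => Bad2 C ρ R2 y i) ×ˢ
        (Finset.univ : Finset Ω4)).card * 2 ^ ℓ ≤ Fintype.card (Ω2 × Ω4) := by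
      intro i
      rw [Finset.card_product, Fintype.card_prod, Finset.card_univ, mul_right_comm]
      exact Nat.mul_le_mul_right _ (hc2 i)
    have hb4 : ∀ i : Fin C.n4, ((Finset.univ : Finset Ω2) ×ˢ
        (Finset.univ.filter fun R4 : Ω4 => Bad4 C ρ R4 y i)).card * 2 ^ ℓ ≤
        Fintype.card (Ω2 × Ω4) := by
      intro i
      rw [Finset.card_product, Fintype.card_prod, Finset.card_univ, mul_assoc]
      exact Nat.mul_le_mul_left _ (hc4 i)
    calc _ ≤ ((∑ i : Fin C.n2, ((Finset.univ.filter fun R2 : Ω2 => Bad2 C ρ R2 y i) ×ˢ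
            (Finset.univ : Finset Ω4)).card) +
          ∑ i : Fin C.n4, ((Finset.univ : Finset Ω2) ×ˢ
            (Finset.univ.filter fun R4 : Ω4 => Bad4 C ρ R4 y i)).card) * 2 ^ ℓ := by
          refine Nat.mul_le_mul_right _ ?_
          refine (Finset.card_le_card hsub).trans ((Finset.card_union_le _ _).trans ?_)
          exact Nat.add_le_add Finset.card_biUnion_le Finset.card_biUnion_le
      _ ≤ (C.n2 + C.n4) * Fintype.card (Ω2 × Ω4) := by
          rw [add_mul, Finset.sum_mul, Finset.sum_mul, add_mul]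
          refine Nat.add_le_add ?_ ?_
          · exact (Finset.sum_le_card_nsmul _ _ _ fun i _ => hb2 i).trans (by simp)
          · exact (Finset.sum_le_card_nsmul _ _ _ fun i _ => hb4 i).trans (by simp)
  have hsum : ∑ ω : Ω2 × Ω4, (Finset.univ.filter fun y : Y =>
      eval y (C.val ρ) ≠ eval y (a5 C ρ ω.1 ω.2)).card =
      ∑ y : Y, (Finset.univ.filter fun ω : Ω2 × Ω4 =>
      eval y (C.val ρ) ≠ eval y (a5 C ρ ω.1 ω.2)).card := by
    simp only [Finset.card_filter]
    exact Finset.sum_comm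
  have h1 : ∑ ω : Ω2 × Ω4, (C.n2 + C.n4) * Fintype.card Y <
      ∑ ω : Ω2 × Ω4, (Finset.univ.filter fun y : Y =>
      eval y (C.val ρ) ≠ eval y (a5 C ρ ω.1 ω.2)).card * 2 ^ ℓ := by
    refine Finset.sum_lt_sum_of_nonempty ?_ fun ω _ =>
      hcon _ (totalDegree_a5 C ρ ω.1 ω.2 hρ)
    have : Nonempty (Ω2 × Ω4) := ⟨(fun _ _ => 0, fun _ _ => 0)⟩
    exact Finset.univ_nonempty
  have h2 : ∑ y : Y, (Finset.univ.filter fun ω : Ω2 × Ω4 =>
      eval y (C.val ρ) ≠ eval y (a5 C ρ ω.1 ω.2)).card * 2 ^ ℓ ≤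
      ∑ y : Y, (C.n2 + C.n4) * Fintype.card (Ω2 × Ω4) :=
    Finset.sum_le_sum fun y _ => hpt y
  have h3 : ∑ ω : Ω2 × Ω4, (Finset.univ.filter fun y : Y =>
      eval y (C.val ρ) ≠ eval y (a5 C ρ ω.1 ω.2)).card * 2 ^ ℓ =
      ∑ y : Y, (Finset.univ.filter fun ω : Ω2 × Ω4 =>
      eval y (C.val ρ) ≠ eval y (a5 C ρ ω.1 ω.2)).card * 2 ^ ℓ := by
    rw [← Finset.sum_mul, hsum, ← Finset.sum_mul]
  rw [h3, Finset.sum_const, Finset.card_univ, smul_eq_mul] at h1
  rw [Finset.sum_const, Finset.card_univ, smul_eq_mul] at h2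
  have h4 := h1.trans_le h2
  apply absurd h4
  rw [not_lt]
  apply le_of_eq
  ring

end circ

end P346
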