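import Vale.Agent.P346.Alg

/-! The pairing reduction of a 0/1 string and the associated polynomials. -/

namespace P346

variable {S : Type*} [CommRing S]

/-- factors coming from inactive pairs -/
def W : List S → List Bool → S
  | x :: y :: L, a :: b :: A =>
      (if a = b then 1 else if a then x + L.sum else y + L.sum) * W L A
  | [x], [a] => if a then x else 1
  | _, _ => 1

/-- elements coming from active pairs -/
def ZI : List S → List Bool → List S
  | x :: y :: L, a :: b :: A =>
      if a = b then ((x + L.sum) * (y + L.sum)) :: ZI L A else ZI L A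
  | _, _ => []

/-- bits of the active pairs -/
def act : List Bool → List Bool
  | a :: b :: A => if a = b then a :: act A else act A
  | _ => []

/-- product of the selected elements -/
def pr : List S → List Bool → S
  | x :: L, a :: A => (if a then x else 1) * pr L A
  | _, _ => 1

def u : ℕ → List S → List Bool → S
  | 0, L, A => pr L A
  | j + 1, L, A => W L A * u j (ZI L A) (act A)

def v : ℕ → List S → List Bool → S
  | 0, x :: L, _ :: A => (x + L.sum) * pr L A
  | 0, _, _ => 0
  | j + 1, L, A => W L A * v j (ZI L A) (act A)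

/-- the level-`j` string is nonempty and starts with `false` -/
def Fj : ℕ → List Bool → Prop
  | 0, [] => False
  | 0, a :: _ => a = false
  | j + 1, A => Fj j (act A)

instance : ∀ j A, Decidable (Fj j A)
  | 0, [] => inferInstanceAs (Decidable False)
  | 0, a :: _ => inferInstanceAs (Decidable (a = false))
  | j + 1, A => instDecidableFj j (act A)

lemma length_ZI : ∀ (L : List S) (A : List Bool), L.length = A.length →
    (ZI L A).length = (act A).length
  | [], [], _ => rfl
  | [_], [_], _ => rfl
  | x :: y :: L, a :: b :: A, h => by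
    have ih := length_ZI L A (by simpa using h)
    simp only [ZI, act]
    split_ifs <;> simp [ih]
  | [], _ :: _, h => by simp at h
  | _ :: _, [], h => by simp at h
  | [_], _ :: _ :: _, h => by simp at h
  | _ :: _ :: _, [_], h => by simp at h

lemma sq_ZI (h2 : (2 : S) = 0) : ∀ (L : List S) (A : List Bool), (∀ x ∈ L, x * x = 0) →
    ∀ z ∈ ZI L A, z * z = 0
  | x :: y :: L, a :: b :: A, hL, z, hz => by
    have hL' : ∀ x ∈ L, x * x = 0 := fun z hz => hL z (by simp [hz])
    have hs := sum_sq h2 L hL'
    have hx : x * x = 0 := hL x (by simp)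
    simp only [ZI] at hz
    have hz0 : ((x + L.sum) * (y + L.sum)) * ((x + L.sum) * (y + L.sum)) = 0 := by
      have : (x + L.sum) * (x + L.sum) = 0 := by
        linear_combination hx + hs + x * L.sum * h2
      linear_combination (y + L.sum) * (y + L.sum) * this
    split_ifs at hz with hab
    · rcases List.mem_cons.1 hz with rfl | hz
      · exact hz0
      · exact sq_ZI h2 L A hL' z hz
    · exact sq_ZI h2 L A hL' z hz
  | [], _, _, z, hz => by simp [ZI] at hz
  | [_], _, _, z, hz => by simp [ZI] at hz
  | _ :: _ :: _, [], _, z, hz => by simp [ZI] at hz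
  | _ :: _ :: _, [_], _, z, hz => by simp [ZI] at hz

lemma W_mul_E (h2 : (2 : S) = 0) : ∀ (L : List S) (A : List Bool), L.length = A.length →
    (∀ x ∈ L, x * x = 0) → ∀ c, W L A * E (Zl L) c = W L A * E (ZI L A) c
  | [], [], _, _, c => rfl
  | [_], [_], _, _, c => rfl
  | x :: y :: L, a :: b :: A, h, hL, c => by
    have hL' : ∀ x ∈ L, x * x = 0 := fun z hz => hL z (by simp [hz])
    have hs := sum_sq h2 L hL'
    have hx : x * x = 0 := hL x (by simp)
    have hy : y * y = 0 := hL y (by simp)
    have ih := W_mul_E h2 L A (by simpa using h) hL'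
    have hxs : (x + L.sum) * (x + L.sum) = 0 := by
      linear_combination hx + hs + x * L.sum * h2
    have hys : (y + L.sum) * (y + L.sum) = 0 := by
      linear_combination hy + hs + y * L.sum * h2
    cases c with
    | zero => simp
    | succ c =>
      have ih1 := ih (c + 1)
      have ih0 := ih c
      simp only [W, Zl, ZI, E_cons_succ]
      split_ifs with hab ha
      · simp only [E_cons_succ]
        linear_combination ih1 + (x + L.sum) * (y + L.sum) * ih0
      · linear_combination (x + L.sum) * ih1 + (y + L.sum) * W L A * E (Zl L) c * hxs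
      · linear_combination (y + L.sum) * ih1 + (x + L.sum) * W L A * E (Zl L) c * hys
  | [], _ :: _, h, _, _ => by simp at h
  | _ :: _, [], h, _, _ => by simp at h
  | [_], _ :: _ :: _, h, _, _ => by simp at h
  | _ :: _ :: _, [_], h, _, _ => by simp at h

/-- `e_{2^j} u_A = v_A` for square-zero elements in characteristic two -/
lemma E_mul_u (h2 : (2 : S) = 0) : ∀ (j : ℕ) (L : List S) (A : List Bool),
    L.length = A.length → (∀ x ∈ L, x * x = 0) → Fj j A →
    E L (2 ^ j) * u j L A = v j L A
  | 0, [], [], _, _, hF => by simp [Fj] at hF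
  | 0, x :: L, a :: A, _, _, hF => by
    simp only [Fj] at hF
    subst hF
    simp only [pow_zero, u, v, pr, E_one, List.sum_cons]
    simp
  | 0, [], _ :: _, h, _, _ => by simp at h
  | 0, _ :: _, [], h, _, _ => by simp at h
  | j + 1, L, A, h, hL, hF => by
    have ih := E_mul_u h2 j (ZI L A) (act A) (length_ZI L A h) (sq_ZI h2 L A hL) hF
    simp only [u, v]
    rw [pow_succ', E_two_mul h2 L hL, ← ih]
    have := W_mul_E h2 L A h hL (2 ^ j)
    linear_combination u j (ZI L A) (act A) * this

section map

variable {T : Type*} [CommRing T] (φ : S →+* T)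

lemma map_E : ∀ (L : List S) (k : ℕ), φ (E L k) = E (L.map φ) k
  | [], 0 => by simp
  | [], _ + 1 => by simp
  | _ :: _, 0 => by simp
  | x :: L, k + 1 => by simp [map_E L]

lemma map_W : ∀ (L : List S) (A : List Bool), φ (W L A) = W (L.map φ) A
  | x :: y :: L, a :: b :: A => by
    simp only [W, List.map_cons, map_mul, map_W L A]
    congr 1
    split_ifs <;> simp [map_list_sum]
  | [x], [a] => by
    simp only [W, List.map_cons, List.map_nil]
    split_ifs <;> simp
  | [], _ => by simp [W]
  | [_], [] => by simp [W]
  | [_], _ :: _ :: _ => by simp [W]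
  | _ :: _ :: _, [] => by simp [W]
  | _ :: _ :: _, [_] => by simp [W]

lemma map_ZI : ∀ (L : List S) (A : List Bool), (ZI L A).map φ = ZI (L.map φ) A
  | x :: y :: L, a :: b :: A => by
    simp only [ZI, List.map_cons]
    split_ifs <;> simp [map_ZI L A, map_list_sum]
  | [], _ => by simp [ZI]
  | [_], _ => by simp [ZI]
  | _ :: _ :: _, [] => by simp [ZI]
  | _ :: _ :: _, [_] => by simp [ZI]

lemma map_pr : ∀ (L : List S) (A : List Bool), φ (pr L A) = pr (L.map φ) A
  | x :: L, a :: A => by
    simp only [pr, List.map_cons, map_mul, map_pr L A]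
    split_ifs <;> simp
  | [], _ => by simp [pr]
  | _ :: _, [] => by simp [pr]

lemma map_u : ∀ (j : ℕ) (L : List S) (A : List Bool), φ (u j L A) = u j (L.map φ) A
  | 0, L, A => map_pr φ L A
  | j + 1, L, A => by simp only [u, map_mul, map_W, map_u j, map_ZI]

lemma map_v : ∀ (j : ℕ) (L : List S) (A : List Bool), φ (v j L A) = v j (L.map φ) A
  | 0, x :: L, _ :: A => by simp [v, map_pr, map_list_sum]
  | 0, [], _ => by simp [v]
  | 0, _ :: _, [] => by simp [v]
  | j + 1, L, A => by simp only [v, map_mul, map_W, map_v j, map_ZI]

end map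

end P346
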