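import Vale.Agent.P346.LM

/-! Squarefree coefficients of polynomials over `ZMod 2`. -/

open MvPolynomial

namespace P346

variable {σ : Type*}

/-- the 0/1 point supported on `C` -/
def ind [DecidableEq σ] (C : Finset σ) : σ → ZMod 2 := fun i => if i ∈ C then 1 else 0

lemma eval_ind_monomial [DecidableEq σ] (C : Finset σ) (m : σ →₀ ℕ) (c : ZMod 2) :
    eval (ind C) (monomial m c) = if m.support ⊆ C then c else 0 := by
  rw [eval_monomial, Finsupp.prod]
  split_ifs with h
  · rw [Finset.prod_eq_one, mul_one]
    intro i hi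
    simp [ind, h hi]
  · obtain ⟨i, hi, hC⟩ := Finset.not_subset.1 h
    rw [Finset.prod_eq_zero hi, mul_zero]
    simp only [ind, if_neg hC]
    exact zero_pow (Finsupp.mem_support_iff.1 hi)

lemma sum_subsets [DecidableEq σ] (M S : Finset σ) (c : ZMod 2) :
    ∑ C ∈ S.powerset, (if M ⊆ C then c else 0) = if M = S then c else 0 := by
  rw [← Finset.sum_filter, Finset.sum_const, ← Finset.Icc_eq_filter_powerset]
  by_cases hMS : M ⊆ S
  · rw [Finset.card_Icc_finset hMS]
    split_ifs with h
    · subst h; simp
    · have : M.card < S.card := Finset.card_lt_card (Finset.ssubset_iff_subset_ne.2 ⟨hMS, h⟩)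
      obtain ⟨t, ht⟩ : ∃ t, S.card - M.card = t + 1 := ⟨S.card - M.card - 1, by omega⟩
      rw [ht, pow_succ, mul_smul]
      have : (2 : ℕ) • c = 0 := by
        rw [nsmul_eq_mul]; norm_num
        left; decide
      rw [this, smul_zero]
  · rw [if_neg (fun h => hMS h.subset), Finset.Icc_eq_empty (fun h => hMS h)]
    simp

/-- squarefree exponent vectors -/
def SF (B : σ →₀ ℕ) : Prop := ∀ i, B i ≤ 1

lemma SF.eq_of_support {B m : σ →₀ ℕ} (hB : SF B) (hs : m.support = B.support)
    (hd : m.degree ≤ B.degree) : m = B := by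
  have hle : B ≤ m := by
    intro i
    by_cases hi : i ∈ B.support
    · have h1 : m i ≠ 0 := Finsupp.mem_support_iff.1 (hs ▸ hi)
      have h2 := hB i
      omega
    · rw [Finsupp.notMem_support_iff.1 hi]; exact Nat.zero_le _
  obtain ⟨e, rfl⟩ := exists_add_of_le hle
  have : e.degree = 0 := by
    rw [map_add] at hd
    omega
  rw [Finsupp.degree_eq_zero_iff] at this
  simp [this]

/-- the coefficient of a squarefree monomial of top degree as a sum of values -/
lemma coeff_eq_sum_eval [DecidableEq σ] (B : σ →₀ ℕ) (hB : SF B) (p : MvPolynomial σ (ZMod 2))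
    (hp : p.totalDegree ≤ B.degree) :
    coeff B p = ∑ C ∈ B.support.powerset, eval (ind C) p := by
  have h1 : ∀ C, eval (ind C) p = ∑ m ∈ p.support, if m.support ⊆ C then coeff m p else 0 := by
    intro C
    conv_lhs => rw [p.as_sum, map_sum]
    exact Finset.sum_congr rfl fun m _ => eval_ind_monomial C m _
  simp only [h1]
  rw [Finset.sum_comm]
  simp only [sum_subsets]
  have h2 : ∀ m ∈ p.support, (if m.support = B.support then coeff m p else 0) =
      if m = B then coeff m p else 0 := by
    intro m hm
    by_cases h : m = B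
    · simp [h]
    · have : ¬ m.support = B.support := fun hs => h (hB.eq_of_support hs
        ((le_totalDegree hm).trans hp))
      simp [h, this]
  rw [Finset.sum_congr rfl h2, Finset.sum_ite_eq']
  split_ifs with h
  · rfl
  · exact notMem_support_iff.1 h

/-- the ideal of squares of the variables -/
noncomputable def J (σ : Type*) : Ideal (MvPolynomial σ (ZMod 2)) :=
  Ideal.span (Set.range fun i : σ => (X i * X i : MvPolynomial σ (ZMod 2)))

lemma coeff_J {p : MvPolynomial σ (ZMod 2)} (hp : p ∈ J σ) : ∀ B : σ →₀ ℕ, SF B →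
    coeff B p = 0 := by
  classical
  refine Submodule.span_induction (p := fun p _ => ∀ B : σ →₀ ℕ, SF B → coeff B p = 0)
    ?_ ?_ ?_ ?_ hp
  · rintro _ ⟨i, rfl⟩ B hB
    have : (X i * X i : MvPolynomial σ (ZMod 2)) = monomial (Finsupp.single i 2) 1 := by
      rw [X, monomial_mul, ← Finsupp.single_add]; norm_num
    simp only [this, coeff_monomial]
    rw [if_neg]
    rintro rfl
    have := hB i
    simp at this
  · intro B _; simp
  · intro x y _ _ hx hy B hB
    simp [hx B hB, hy B hB]
  · intro a x _ hx B hB
    rw [smul_eq_mul, coeff_mul]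
    apply Finset.sum_eq_zero
    rintro ⟨s, t⟩ hst
    rw [Finset.HasAntidiagonal.mem_antidiagonal] at hst
    have : SF t := fun i => by
      have h1 := hB i
      have h2 : s i + t i = B i := by rw [← hst]; simp
      omega
    simp [hx t this]

end P346
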