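import Vale.Agent.P346.Bits

/-! Flipping the first level-`j` symbol, and counting. -/

namespace P346

/-- overwrite the bits of the active pairs -/
def rep : List Bool → List Bool → List Bool
  | a :: b :: A, B =>
      if a = b then
        match B with
        | c :: B' => c :: c :: rep A B'
        | [] => a :: b :: rep A []
      else a :: b :: rep A B
  | A, _ => A

/-- flip the first level-`j` symbol to `true` -/
def flip : ℕ → List Bool → List Bool
  | 0, [] => []
  | 0, _ :: A => true :: A
  | j + 1, A => rep A (flip j (act A))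

lemma length_rep : ∀ (A B : List Bool), (rep A B).length = A.length
  | [], _ => rfl
  | [_], _ => rfl
  | a :: b :: A, B => by
    simp only [rep]
    split_ifs with h
    · cases B <;> simp [length_rep A]
    · simp [length_rep A]

lemma length_flip : ∀ (j : ℕ) (A : List Bool), (flip j A).length = A.length
  | 0, [] => rfl
  | 0, _ :: _ => rfl
  | j + 1, A => by simp [flip, length_rep]

lemma act_rep : ∀ (A B : List Bool), B.length = (act A).length → act (rep A B) = B
  | [], B, h => by
    simp only [act, List.length_nil] at h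
    rw [List.length_eq_zero_iff.1 h]; rfl
  | [_], B, h => by
    simp only [act, List.length_nil] at h
    rw [List.length_eq_zero_iff.1 h]; rfl
  | a :: b :: A, B, h => by
    simp only [rep]
    simp only [act] at h
    split_ifs with hab
    · rw [if_pos hab] at h
      cases B with
      | nil => simp at h
      | cons c B =>
        simp only [List.length_cons, Nat.add_right_cancel_iff] at h
        simp [act, act_rep A B h]
    · rw [if_neg hab] at h
      simp [act, hab, act_rep A B h]

lemma rep_act : ∀ (A : List Bool), rep A (act A) = A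
  | [] => rfl
  | [_] => rfl
  | a :: b :: A => by
    simp only [rep, act]
    split_ifs with h
    · subst h; simp [rep_act A]
    · simp [rep_act A]

lemma rep_rep : ∀ (A B C : List Bool), B.length = (act A).length → C.length = (act A).length →
    rep (rep A B) C = rep A C
  | [], B, C, _, _ => rfl
  | [_], B, C, _, _ => rfl
  | a :: b :: A, B, C, h, h' => by
    simp only [act] at h h'
    simp only [rep]
    split_ifs with hab
    · rw [if_pos hab] at h h'
      cases B with
      | nil => simp at h
      | cons c B =>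
        cases C with
        | nil => simp at h'
        | cons d C =>
          simp only [List.length_cons, Nat.add_right_cancel_iff] at h h'
          simp [rep, rep_rep A B C h h']
    · rw [if_neg hab] at h h'
      simp [rep, hab, rep_rep A B C h h']

lemma flip_inj : ∀ (j : ℕ) (A A' : List Bool), Fj j A → Fj j A' → flip j A = flip j A' → A = A'
  | 0, [], _, h, _, _ => by simp [Fj] at h
  | 0, _ :: _, [], _, h, _ => by simp [Fj] at h
  | 0, a :: A, a' :: A', h, h', e => by
    simp only [Fj] at h h'
    simp only [flip, List.cons.injEq, true_and] at e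
    rw [h, h', e]
  | j + 1, A, A', h, h', e => by
    simp only [Fj] at h h'
    simp only [flip] at e
    have l1 := length_flip j (act A)
    have l2 := length_flip j (act A')
    have e1 : flip j (act A) = flip j (act A') := by
      have := congrArg act e
      rwa [act_rep A _ l1, act_rep A' _ l2] at this
    have e2 := flip_inj j (act A) (act A') h h' e1
    calc A = rep (rep A (flip j (act A))) (act A) := by
          rw [rep_rep _ _ _ l1 rfl, rep_act]
      _ = rep (rep A' (flip j (act A'))) (act A') := by rw [e, e2]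
      _ = A' := by rw [rep_rep _ _ _ l2 rfl, rep_act]

/-- number of `true` bits in the inactive part -/
def wc : List Bool → ℕ
  | a :: b :: A => (if a = b then 0 else 1) + wc A
  | [a] => if a then 1 else 0
  | [] => 0

lemma count_eq : ∀ A : List Bool, A.count true = wc A + 2 * (act A).count true
  | [] => rfl
  | [a] => by cases a <;> simp [wc, act]
  | a :: b :: A => by
    have ih := count_eq A
    cases a <;> cases b <;> simp [wc, act, ih] <;> omega

/-- sum over all strings of length `m` -/
def T : ℕ → (List Bool → ℝ) → ℝ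
  | 0, φ => φ []
  | m + 1, φ => T m (fun A => φ (false :: A)) + T m (fun A => φ (true :: A))

lemma T_add (m : ℕ) (φ ψ : List Bool → ℝ) : T m (fun A => φ A + ψ A) = T m φ + T m ψ := by
  induction m generalizing φ ψ with
  | zero => rfl
  | succ m ih => simp only [T]; rw [ih, ih]; ring

lemma T_eq (m : ℕ) (φ : List Bool → ℝ) : T m φ = ∑ A : Fin m → Bool, φ (List.ofFn A) := by
  induction m generalizing φ with
  | zero => simp [T]
  | succ m ih =>
    simp only [T, ih]
    rw [← (Fin.consEquiv (fun _ : Fin (m + 1) => Bool)).sum_comp, Fintype.sum_prod_type]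
    simp [Fin.consEquiv, List.ofFn_succ, add_comm]

/-- multiplicities -/
def cc : ℕ → ℕ → ℝ
  | 0, a => if a = 0 then 1 else 0
  | 1, a => if a = 0 then 2 else 0
  | m + 2, 0 => 2 * cc m 0
  | m + 2, a + 1 => 2 * cc m (a + 1) + cc m a

lemma cc_nonneg : ∀ m a, 0 ≤ cc m a
  | 0, a => by simp only [cc]; split_ifs <;> norm_num
  | 1, a => by simp only [cc]; split_ifs <;> norm_num
  | m + 2, 0 => by simp only [cc]; have := cc_nonneg m 0; positivity
  | m + 2, a + 1 => by
    simp only [cc]; have := cc_nonneg m (a + 1); have := cc_nonneg m a; positivity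

lemma cc_zero : ∀ m a, m < a → cc m a = 0
  | 0, a, h => by simp only [cc]; rw [if_neg (by omega)]
  | 1, a, h => by simp only [cc]; rw [if_neg (by omega)]
  | m + 2, 0, h => by omega
  | m + 2, a + 1, h => by
    simp only [cc]; rw [cc_zero m (a + 1) (by omega), cc_zero m a (by omega)]; ring

lemma sum_cc_step (m : ℕ) (g : ℕ → ℝ) :
    ∑ a ∈ Finset.range (m + 2 + 1), cc (m + 2) a * g a =
      2 * ∑ a ∈ Finset.range (m + 1), cc m a * g a +
        ∑ a ∈ Finset.range (m + 1), cc m a * g (a + 1) := by
  rw [Finset.sum_range_succ']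
  simp only [cc, add_mul]
  rw [Finset.sum_add_distrib]
  have h1 : ∑ a ∈ Finset.range (m + 2), cc m a * g (a + 1) =
      ∑ a ∈ Finset.range (m + 1), cc m a * g (a + 1) := by
    rw [Finset.sum_range_succ, cc_zero m (m + 1) (by omega)]; simp
  have h2 : ∑ a ∈ Finset.range (m + 2), 2 * cc m (a + 1) * g (a + 1) + 2 * cc m 0 * g 0 =
      2 * ∑ a ∈ Finset.range (m + 1), cc m a * g a := by
    have : ∑ a ∈ Finset.range (m + 2 + 1), 2 * cc m a * g a =
        2 * ∑ a ∈ Finset.range (m + 1), cc m a * g a := by
      rw [Finset.sum_range_succ, Finset.sum_range_succ, cc_zero m (m + 1) (by omega),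
        cc_zero m (m + 2) (by omega), Finset.mul_sum]
      simp [mul_assoc]
    rw [← this, Finset.sum_range_succ' _ (m + 2)]
  linarith

lemma T_act : ∀ (m : ℕ) (φ : List Bool → ℝ),
    T m (fun A => φ (act A)) = ∑ a ∈ Finset.range (m + 1), cc m a * T a φ
  | 0, φ => by simp [T, act, cc]
  | 1, φ => by simp [T, act, cc, Finset.sum_range_succ]; ring
  | m + 2, φ => by
    rw [sum_cc_step m (fun a => T a φ)]
    have e1 : T (m + 2) (fun A => φ (act A)) =
        T m (fun A => φ (act A)) + T m (fun A => φ (act A)) +
          T m (fun A => φ (false :: act A) + φ (true :: act A)) := by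
      simp only [T, act]
      rw [T_add]
      simp
      ring
    rw [e1, T_act m φ, T_act m (fun A => φ (false :: A) + φ (true :: A))]
    have e2 : ∀ a, T a (fun A => φ (false :: A) + φ (true :: A)) = T (a + 1) φ := by
      intro a; rw [T_add]; rfl
    simp only [e2]
    ring

/-- level-`j` string is empty -/
def Ej : ℕ → List Bool → Prop
  | 0, A => A = []
  | j + 1, A => Ej j (act A)

instance : ∀ j A, Decidable (Ej j A)
  | 0, A => inferInstanceAs (Decidable (A = []))
  | j + 1, A => instDecidableEj j (act A)

noncomputable def Q (j m : ℕ) : ℝ := T m (fun A => if Ej j A then 1 else 0)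

lemma T_one (m : ℕ) : T m (fun _ => 1) = 2 ^ m := by
  induction m with
  | zero => rfl
  | succ m ih => simp only [T]; rw [ih]; ring

lemma count_Fj (j m : ℕ) : 2 * T m (fun A => if Fj j A then 1 else 0) = 2 ^ m - Q j m := by
  induction j generalizing m with
  | zero =>
    cases m with
    | zero => simp [T, Q, Fj, Ej]
    | succ m =>
      simp only [T, Q, Fj, Ej]
      simp
      rw [T_one, show T m (fun _ => (0 : ℝ)) = 0 by
        have := T_add m (fun _ => 0) (fun _ => 0)
        simp at this; exact this]
      ring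
  | succ j ih =>
    have h1 := T_act m (fun A => if Fj j A then (1 : ℝ) else 0)
    have h2 := T_act m (fun A => if Ej j A then (1 : ℝ) else 0)
    have h3 := T_act m (fun _ => (1 : ℝ))
    simp only [Q, Fj, Ej] at *
    rw [h1, h2, ← T_one m, h3, Finset.mul_sum, ← Finset.sum_sub_distrib]
    refine Finset.sum_congr rfl fun a _ => ?_
    have := ih a
    rw [← T_one a] at this
    linear_combination cc m a * this

lemma gamma_bound (t θ : ℝ) (ht : 0 ≤ t) (hθ : 0 < θ) (hθ1 : θ ≤ 1) (h : 2 + t ≤ (2 * θ) ^ 2) :
    ∀ m, ∑ a ∈ Finset.range (m + 1), cc m a * t ^ a ≤ (2 * θ) ^ m / θ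
  | 0 => by simp [cc]; rw [one_le_inv₀ hθ]; exact hθ1
  | 1 => by
    simp [cc, Finset.sum_range_succ]
    rw [le_div_iff₀ hθ]
  | m + 2 => by
    have ih := gamma_bound t θ ht hθ hθ1 h m
    have e := sum_cc_step m (fun a => t ^ a)
    have e2 : ∑ a ∈ Finset.range (m + 1), cc m a * t ^ (a + 1) =
        t * ∑ a ∈ Finset.range (m + 1), cc m a * t ^ a := by
      rw [Finset.mul_sum]; exact Finset.sum_congr rfl fun a _ => by ring
    simp only [e2] at e
    rw [e]
    have h0 : 0 ≤ ∑ a ∈ Finset.range (m + 1), cc m a * t ^ a :=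
      Finset.sum_nonneg fun a _ => mul_nonneg (cc_nonneg m a) (by positivity)
    calc 2 * ∑ a ∈ Finset.range (m + 1), cc m a * t ^ a +
          t * ∑ a ∈ Finset.range (m + 1), cc m a * t ^ a
        = (2 + t) * ∑ a ∈ Finset.range (m + 1), cc m a * t ^ a := by ring
      _ ≤ (2 * θ) ^ 2 * ((2 * θ) ^ m / θ) := mul_le_mul h ih h0 (by positivity)
      _ = (2 * θ) ^ (m + 2) / θ := by rw [pow_add]; ring

lemma Q_bound (j : ℕ) : ∀ m, Q j m ≤ (2 - (1 / 4 : ℝ) ^ j) * (2 * (1 - (1 / 4 : ℝ) ^ j)) ^ m := by
  induction j with
  | zero =>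
    intro m
    cases m with
    | zero => simp [Q, T, Ej]; norm_num
    | succ m =>
      simp only [Q, T, Ej]
      simp
      rw [show T m (fun _ => (0 : ℝ)) = 0 by
        have := T_add m (fun _ => 0) (fun _ => 0)
        simp at this; exact this]
  | succ j ih =>
    intro m
    set t : ℝ := (1 / 4 : ℝ) ^ (j + 1) with ht
    have ht0 : 0 < t := by positivity
    have htj : (1 / 4 : ℝ) ^ j = 4 * t := by rw [ht, pow_succ]; ring
    have ht1 : 4 * t ≤ 1 := by rw [← htj]; exact pow_le_one₀ (by norm_num) (by norm_num)
    have h2 : Q (j + 1) m = ∑ a ∈ Finset.range (m + 1), cc m a * Q j a := by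
      exact T_act m (fun A => if Ej j A then (1 : ℝ) else 0)
    rw [h2]
    have h3 : ∑ a ∈ Finset.range (m + 1), cc m a * Q j a ≤
        (2 - 4 * t) * ∑ a ∈ Finset.range (m + 1), cc m a * (2 * (1 - 4 * t)) ^ a := by
      rw [Finset.mul_sum]
      refine Finset.sum_le_sum fun a _ => ?_
      have := ih a
      rw [htj] at this
      calc cc m a * Q j a ≤ cc m a * ((2 - 4 * t) * (2 * (1 - 4 * t)) ^ a) :=
            mul_le_mul_of_nonneg_left this (cc_nonneg m a)
        _ = _ := by ring
    have h4 := gamma_bound (2 * (1 - 4 * t)) (1 - t) (by linarith) (by linarith) (by linarith)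
      (by nlinarith) m
    have h5 : (2 - 4 * t) / (1 - t) ≤ 2 - t := by
      rw [div_le_iff₀ (by linarith)]; nlinarith
    calc ∑ a ∈ Finset.range (m + 1), cc m a * Q j a ≤ _ := h3
      _ ≤ (2 - 4 * t) * ((2 * (1 - t)) ^ m / (1 - t)) :=
          mul_le_mul_of_nonneg_left h4 (by linarith)
      _ = ((2 - 4 * t) / (1 - t)) * (2 * (1 - t)) ^ m := by ring
      _ ≤ (2 - t) * (2 * (1 - t)) ^ m :=
          mul_le_mul_of_nonneg_right h5 (pow_nonneg (by linarith) _)

/-- at least a quarter of all strings of length `2·4^j` have a nonempty level-`j` string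
starting with `false` -/
theorem card_Fj (j : ℕ) :
    2 ^ (2 * 4 ^ j) ≤ 4 * Fintype.card {A : Fin (2 * 4 ^ j) → Bool // Fj j (List.ofFn A)} := by
  classical
  set m := 2 * 4 ^ j with hm
  have h1 := count_Fj j m
  have h2 := Q_bound j m
  have h3 : T m (fun A => if Fj j A then (1 : ℝ) else 0) =
      Fintype.card {A : Fin m → Bool // Fj j (List.ofFn A)} := by
    rw [T_eq, Fintype.card_subtype]
    simp
  set t : ℝ := (1 / 4 : ℝ) ^ j with ht
  have ht0 : 0 < t := by positivity
  have ht1 : t ≤ 1 := pow_le_one₀ (by norm_num) (by norm_num)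
  have h4t : t * (4 : ℝ) ^ j = 1 := by
    rw [ht, ← mul_pow]; norm_num
  have h5 : (1 - t) ^ m ≤ 1 / 4 := by
    have h6 : (1 - t) ≤ Real.exp (-t) := by
      have := Real.add_one_le_exp (-t); linarith
    calc (1 - t) ^ m ≤ Real.exp (-t) ^ m := pow_le_pow_left₀ (by linarith) h6 m
      _ = Real.exp (-2) := by
          rw [← Real.exp_nat_mul]; congr 1; rw [hm]; push_cast; linear_combination (-2) * h4t
      _ ≤ 1 / 4 := by
          have h7 : (2 : ℝ) ≤ Real.exp 1 := by
            have := Real.add_one_le_exp (1 : ℝ); linarith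
          have h8 : (4 : ℝ) ≤ Real.exp 2 := by
            have : Real.exp 2 = Real.exp 1 * Real.exp 1 := by
              rw [← Real.exp_add]; norm_num
            rw [this]; nlinarith
          rw [Real.exp_neg, one_div]
          exact inv_anti₀ (by norm_num) h8
  have h9 : Q j m ≤ 2 ^ m / 2 := by
    calc Q j m ≤ _ := h2
      _ = (2 - t) * (2 ^ m * (1 - t) ^ m) := by rw [mul_pow]
      _ ≤ 2 * (2 ^ m * (1 / 4)) := by
          have : (0 : ℝ) ≤ (1 - t) ^ m := pow_nonneg (by linarith) _
          gcongr; linarith
      _ = 2 ^ m / 2 := by ring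
  have h10 : (2 : ℝ) ^ m ≤ 4 * Fintype.card {A : Fin m → Bool // Fj j (List.ofFn A)} := by
    rw [← h3]; linarith
  exact_mod_cast h10

end P346
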