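import Mathlib

/-! `ΣΠΣΠΣ` circuits and iterated matrix multiplication. -/

namespace P346

/-- A `ΣΠΣΠΣ` circuit over `K` with variables indexed by `V`: leaves (variables or constants),
then five layers of gates (sum, product, sum, product, and one output sum gate).  Every gate
lists its inputs, with multiplicity, from the layer directly below; sum gates carry a
coefficient on every input.  Gates may be shared. -/
structure Circ (K V : Type) where
  n0 : ℕ
  n1 : ℕ
  n2 : ℕ
  n3 : ℕ
  n4 : ℕ
  leaf : Fin n0 → V ⊕ K
  sum1 : Fin n1 → List (K × Fin n0)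
  prod2 : Fin n2 → List (Fin n1)
  sum3 : Fin n3 → List (K × Fin n2)
  prod4 : Fin n4 → List (Fin n3)
  out : List (K × Fin n4)

namespace Circ

variable {K V : Type}

/-- number of vertices: all leaves, all gates of the four lower layers, and the output gate -/
def size (C : Circ K V) : ℕ := C.n0 + C.n1 + C.n2 + C.n3 + C.n4 + 1

section val

variable [CommRing K] (C : Circ K V) {R : Type} [CommRing R] [Algebra K R] (x : V → R)

/-- values of the leaves when variable `v` takes the value `x v` -/
def v0 (i : Fin C.n0) : R :=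
  match C.leaf i with
  | .inl a => x a
  | .inr c => algebraMap K R c

def v1 (i : Fin C.n1) : R := ((C.sum1 i).map fun p => p.1 • C.v0 x p.2).sum

def v2 (i : Fin C.n2) : R := ((C.prod2 i).map (C.v1 x)).prod

def v3 (i : Fin C.n3) : R := ((C.sum3 i).map fun p => p.1 • C.v2 x p.2).sum

def v4 (i : Fin C.n4) : R := ((C.prod4 i).map (C.v3 x)).prod

/-- value of the output gate -/
def val : R := (C.out.map fun p => p.1 • C.v4 x p.2).sum

/-- the formal polynomial computed by the circuit -/
noncomputable def poly (C : Circ K V) : MvPolynomial V K := C.val MvPolynomial.X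

end val

/-- Syntactic homogeneity: formal degrees can be assigned to the vertices so that variables have
degree `1`, constants degree `0`, a product gate has the sum of the degrees of its inputs (with
multiplicity), and all inputs of a sum gate have the degree of that gate. -/
def Homog (C : Circ K V) : Prop :=
  ∃ (d0 : Fin C.n0 → ℕ) (d1 : Fin C.n1 → ℕ) (d2 : Fin C.n2 → ℕ) (d3 : Fin C.n3 → ℕ)
    (d4 : Fin C.n4 → ℕ) (d5 : ℕ),
    (∀ i, (∃ a, C.leaf i = .inl a ∧ d0 i = 1) ∨ (∃ c, C.leaf i = .inr c ∧ d0 i = 0)) ∧
    (∀ i, ∀ p ∈ C.sum1 i, d0 p.2 = d1 i) ∧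
    (∀ i, d2 i = ((C.prod2 i).map d1).sum) ∧
    (∀ i, ∀ p ∈ C.sum3 i, d2 p.2 = d3 i) ∧
    (∀ i, d4 i = ((C.prod4 i).map d3).sum) ∧
    (∀ p ∈ C.out, d4 p.2 = d5)

end Circ

/-- The iterated matrix multiplication polynomial: the `(1,1)` entry of the product of `d`
generic `w × w` matrices, `X (k, a, b)` being the entry `(a, b)` of the `k`-th matrix. -/
noncomputable def IMM (K : Type) [CommRing K] (w d : ℕ) [NeZero w] :
    MvPolynomial (Fin d × Fin w × Fin w) K :=
  (List.ofFn fun k : Fin d =>
    (Matrix.of fun a b => MvPolynomial.X (k, a, b) :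
      Matrix (Fin w) (Fin w) (MvPolynomial (Fin d × Fin w × Fin w) K))).prod 0 0

end P346
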