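import Vale.Agent.P346.Count

/-! Leading monomials of the polynomials `u`, `v`. -/

open MvPolynomial

namespace P346

variable {σ k : Type*} [CommRing k] [IsDomain k] (m : MonomialOrder σ)

/-- strictly decreasing, non-constant leading monomials -/
def Dec (L : List (MvPolynomial σ k)) : Prop :=
  L.Pairwise (fun p q => m.toSyn (m.degree q) < m.toSyn (m.degree p)) ∧
    ∀ p ∈ L, 0 < m.toSyn (m.degree p)

variable {m}

lemma ne_zero_of_pos {p : MvPolynomial σ k} (h : 0 < m.toSyn (m.degree p)) : p ≠ 0 := by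
  rintro rfl
  simp at h

lemma deg_sum_lt (d : m.syn) (hd : 0 < d) : ∀ (L : List (MvPolynomial σ k)),
    (∀ p ∈ L, m.toSyn (m.degree p) < d) → m.toSyn (m.degree L.sum) < d
  | [], _ => by simpa using hd
  | p :: L, h => by
    rw [List.sum_cons]
    exact lt_of_le_of_lt m.degree_add_le
      (max_lt (h p (by simp)) (deg_sum_lt d hd L fun q hq => h q (by simp [hq])))

lemma Dec.tail {p : MvPolynomial σ k} {L : List (MvPolynomial σ k)} (h : Dec m (p :: L)) :
    Dec m L :=
  ⟨(List.pairwise_cons.1 h.1).2, fun q hq => h.2 q (by simp [hq])⟩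

lemma deg_head {x : MvPolynomial σ k} {L : List (MvPolynomial σ k)}
    (hx : 0 < m.toSyn (m.degree x)) (h : ∀ p ∈ L, m.toSyn (m.degree p) < m.toSyn (m.degree x)) :
    m.degree (x + L.sum) = m.degree x :=
  m.degree_add_of_lt (deg_sum_lt _ hx L h)

lemma head_pos {x : MvPolynomial σ k} {L : List (MvPolynomial σ k)}
    (hx : 0 < m.toSyn (m.degree x)) (h : ∀ p ∈ L, m.toSyn (m.degree p) < m.toSyn (m.degree x)) :
    x + L.sum ≠ 0 := by
  apply ne_zero_of_pos (m := m)
  rwa [deg_head hx h]

/-- the facts used about the first two elements -/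
lemma Dec.two {x y : MvPolynomial σ k} {L : List (MvPolynomial σ k)} (h : Dec m (x :: y :: L)) :
    m.degree (x + L.sum) = m.degree x ∧ m.degree (y + L.sum) = m.degree y ∧
      x + L.sum ≠ 0 ∧ y + L.sum ≠ 0 := by
  have h1 := List.pairwise_cons.1 h.1
  have h2 := List.pairwise_cons.1 h1.2
  have hx := h.2 x (by simp)
  have hy := h.2 y (by simp)
  have a1 : ∀ p ∈ L, m.toSyn (m.degree p) < m.toSyn (m.degree x) :=
    fun p hp => h1.1 p (by simp [hp])
  have a2 : ∀ p ∈ L, m.toSyn (m.degree p) < m.toSyn (m.degree y) := fun p hp => h2.1 p hp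
  exact ⟨deg_head hx a1, deg_head hy a2, head_pos hx a1, head_pos hy a2⟩

lemma lt_ZI : ∀ (L : List (MvPolynomial σ k)) (A : List Bool), Dec m L → ∀ d1 d2 : m.syn,
    (∀ p ∈ L, m.toSyn (m.degree p) < d1) → (∀ p ∈ L, m.toSyn (m.degree p) < d2) →
    ∀ z ∈ ZI L A, m.toSyn (m.degree z) < d1 + d2
  | x :: y :: L, a :: b :: A, h, d1, d2, h1, h2, z, hz => by
    obtain ⟨e1, e2, n1, n2⟩ := h.two
    have key : m.toSyn (m.degree ((x + L.sum) * (y + L.sum))) < d1 + d2 := by
      rw [m.degree_mul n1 n2, e1, e2, map_add]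
      exact add_lt_add (h1 x (by simp)) (h2 y (by simp))
    have ih := lt_ZI L A h.tail.tail d1 d2 (fun p hp => h1 p (by simp [hp]))
      (fun p hp => h2 p (by simp [hp]))
    simp only [ZI] at hz
    split_ifs at hz with hab
    · rcases List.mem_cons.1 hz with rfl | hz
      · exact key
      · exact ih z hz
    · exact ih z hz
  | [], _, _, _, _, _, _, z, hz => by simp [ZI] at hz
  | [_], _, _, _, _, _, _, z, hz => by simp [ZI] at hz
  | _ :: _ :: _, [], _, _, _, _, _, z, hz => by simp [ZI] at hz
  | _ :: _ :: _, [_], _, _, _, _, _, z, hz => by simp [ZI] at hz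

lemma Dec.ZI : ∀ (L : List (MvPolynomial σ k)) (A : List Bool), Dec m L → Dec m (ZI L A)
  | x :: y :: L, a :: b :: A, h => by
    obtain ⟨e1, e2, n1, n2⟩ := h.two
    have ih := Dec.ZI L A h.tail.tail
    simp only [P346.ZI]
    split_ifs with hab
    · have h1 := List.pairwise_cons.1 h.1
      have h2 := List.pairwise_cons.1 h1.2
      have hdeg : m.toSyn (m.degree ((x + L.sum) * (y + L.sum))) =
          m.toSyn (m.degree x) + m.toSyn (m.degree y) := by
        rw [m.degree_mul n1 n2, e1, e2, map_add]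
      refine ⟨List.pairwise_cons.2 ⟨fun z hz => ?_, ih.1⟩, ?_⟩
      · rw [hdeg]
        exact lt_ZI L A h.tail.tail _ _ (fun p hp => h1.1 p (by simp [hp]))
          (fun p hp => h2.1 p hp) z hz
      · intro p hp
        rcases List.mem_cons.1 hp with rfl | hp
        · rw [hdeg]
          exact add_pos (h.2 x (by simp)) (h.2 y (by simp))
        · exact ih.2 p hp
    · exact ih
  | [], _, _ => by simp [P346.ZI, Dec]
  | [_], _, _ => by simp [P346.ZI, Dec]
  | _ :: _ :: _, [], _ => by simp [P346.ZI, Dec]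
  | _ :: _ :: _, [_], _ => by simp [P346.ZI, Dec]

variable (m) in
/-- sum of the selected leading exponents -/
noncomputable def ds : List (MvPolynomial σ k) → List Bool → (σ →₀ ℕ)
  | x :: L, a :: A => (if a then m.degree x else 0) + ds L A
  | _, _ => 0

lemma deg_W : ∀ (L : List (MvPolynomial σ k)) (A B : List Bool), Dec m L →
    L.length = A.length → B.length = (act A).length →
    W L A ≠ 0 ∧ m.degree (W L A) + ds m (ZI L A) B = ds m L (rep A B)
  | [], [], B, _, _, hB => by
    simp only [act, List.length_nil] at hB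
    rw [List.length_eq_zero_iff.1 hB]
    simp [W, ZI, rep, ds]
  | [x], [a], B, h, _, hB => by
    simp only [act, List.length_nil] at hB
    rw [List.length_eq_zero_iff.1 hB]
    have hx := ne_zero_of_pos (h.2 x (by simp))
    cases a <;> simp [W, ZI, rep, ds, hx]
  | x :: y :: L, a :: b :: A, B, h, hl, hB => by
    obtain ⟨e1, e2, n1, n2⟩ := h.two
    simp only [List.length_cons, Nat.add_right_cancel_iff] at hl
    simp only [act] at hB
    by_cases hab : a = b
    · rw [if_pos hab] at hB
      cases B with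
      | nil => simp at hB
      | cons c B =>
        simp only [List.length_cons, Nat.add_right_cancel_iff] at hB
        obtain ⟨i1, i2⟩ := deg_W L A B h.tail.tail hl hB
        simp only [W, ZI, rep, if_pos hab, ds]
        refine ⟨by simpa using i1, ?_⟩
        rw [one_mul, m.degree_mul n1 n2, e1, e2, ← i2]
        cases c
        · simp
        · simp; abel
    · rw [if_neg hab] at hB
      obtain ⟨i1, i2⟩ := deg_W L A B h.tail.tail hl hB
      simp only [W, ZI, rep, if_neg hab, ds]
      rw [← i2]
      cases a <;> cases b <;> simp at hab ⊢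
      · refine ⟨⟨n2, i1⟩, ?_⟩
        rw [m.degree_mul n2 i1, e2]; abel
      · refine ⟨⟨n1, i1⟩, ?_⟩
        rw [m.degree_mul n1 i1, e1]; abel
  | [], _ :: _, _, _, h, _ => by simp at h
  | _ :: _, [], _, _, h, _ => by simp at h
  | [_], _ :: _ :: _, _, _, h, _ => by simp at h
  | _ :: _ :: _, [_], _, _, h, _ => by simp at h

lemma deg_pr : ∀ (L : List (MvPolynomial σ k)) (A : List Bool), Dec m L →
    pr L A ≠ 0 ∧ m.degree (pr L A) = ds m L A
  | [], _, _ => by simp [pr, ds]
  | _ :: _, [], _ => by simp [pr, ds]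
  | x :: L, a :: A, h => by
    obtain ⟨i1, i2⟩ := deg_pr L A h.tail
    have hx := ne_zero_of_pos (h.2 x (by simp))
    cases a
    · simp [pr, ds, i1, i2]
    · simp only [pr, ds, if_true]
      exact ⟨mul_ne_zero hx i1, by rw [m.degree_mul hx i1, i2]⟩

lemma deg_v : ∀ (j : ℕ) (L : List (MvPolynomial σ k)) (A : List Bool), Dec m L →
    L.length = A.length → Fj j A →
    v j L A ≠ 0 ∧ m.degree (v j L A) = ds m L (flip j A)
  | 0, x :: L, a :: A, h, _, _ => by
    have h1 := List.pairwise_cons.1 h.1
    have hx := h.2 x (by simp)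
    have e := deg_head hx h1.1
    have n := head_pos hx h1.1
    obtain ⟨i1, i2⟩ := deg_pr L A h.tail
    refine ⟨mul_ne_zero n i1, ?_⟩
    simp only [v, flip, ds, if_true]
    rw [m.degree_mul n i1, e, i2]
  | 0, [], [], _, _, hF => by simp [Fj] at hF
  | 0, [], _ :: _, _, h, _ => by simp at h
  | 0, _ :: _, [], _, h, _ => by simp at h
  | j + 1, L, A, h, hl, hF => by
    obtain ⟨i1, i2⟩ := deg_v j (ZI L A) (act A) (Dec.ZI L A h) (length_ZI L A hl) hF
    obtain ⟨w1, w2⟩ := deg_W L A (flip j (act A)) h hl (length_flip j _)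
    simp only [v, flip]
    exact ⟨mul_ne_zero w1 i1, by rw [m.degree_mul w1 i1, i2, w2]⟩

/-! ### homogeneity -/

lemma isHomogeneous_add {p q : MvPolynomial σ k} {n : ℕ} (hp : p.IsHomogeneous n)
    (hq : q.IsHomogeneous n) : (p + q).IsHomogeneous n := hp.add hq

lemma isHomogeneous_sum {n : ℕ} : ∀ (L : List (MvPolynomial σ k)),
    (∀ p ∈ L, p.IsHomogeneous n) → L.sum.IsHomogeneous n
  | [], _ => by simpa using isHomogeneous_zero σ k n
  | p :: L, h => by
    rw [List.sum_cons]
    exact (h p (by simp)).add (isHomogeneous_sum L fun q hq => h q (by simp [hq]))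

lemma hom_E {δ : ℕ} : ∀ (L : List (MvPolynomial σ k)) (c : ℕ),
    (∀ p ∈ L, p.IsHomogeneous δ) → (E L c).IsHomogeneous (c * δ)
  | L, 0, _ => by simpa using isHomogeneous_one σ k
  | [], c + 1, _ => by simpa using isHomogeneous_zero σ k _
  | x :: L, c + 1, h => by
    have hL : ∀ p ∈ L, p.IsHomogeneous δ := fun q hq => h q (by simp [hq])
    rw [E_cons_succ]
    refine (hom_E L (c + 1) hL).add ?_
    rw [show (c + 1) * δ = δ + c * δ by ring]
    exact (h x (by simp)).mul (hom_E L c hL)

lemma hom_ZI {δ : ℕ} : ∀ (L : List (MvPolynomial σ k)) (A : List Bool),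
    (∀ p ∈ L, p.IsHomogeneous δ) → ∀ z ∈ ZI L A, z.IsHomogeneous (2 * δ)
  | x :: y :: L, a :: b :: A, h, z, hz => by
    have hL : ∀ p ∈ L, p.IsHomogeneous δ := fun q hq => h q (by simp [hq])
    have ih := hom_ZI L A hL
    have key : ((x + L.sum) * (y + L.sum)).IsHomogeneous (2 * δ) := by
      rw [two_mul]
      exact ((h x (by simp)).add (isHomogeneous_sum L hL)).mul
        ((h y (by simp)).add (isHomogeneous_sum L hL))
    simp only [ZI] at hz
    split_ifs at hz
    · rcases List.mem_cons.1 hz with rfl | hz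
      · exact key
      · exact ih z hz
    · exact ih z hz
  | [], _, _, z, hz => by simp [ZI] at hz
  | [_], _, _, z, hz => by simp [ZI] at hz
  | _ :: _ :: _, [], _, z, hz => by simp [ZI] at hz
  | _ :: _ :: _, [_], _, z, hz => by simp [ZI] at hz

lemma hom_W {δ : ℕ} : ∀ (L : List (MvPolynomial σ k)) (A : List Bool), L.length = A.length →
    (∀ p ∈ L, p.IsHomogeneous δ) → (W L A).IsHomogeneous (wc A * δ)
  | [], [], _, _ => by simpa [W, wc] using isHomogeneous_one σ k
  | [x], [a], _, h => by
    cases a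
    · simpa [W, wc] using isHomogeneous_one σ k
    · simpa [W, wc] using h x (by simp)
  | x :: y :: L, a :: b :: A, hl, h => by
    have hL : ∀ p ∈ L, p.IsHomogeneous δ := fun q hq => h q (by simp [hq])
    have ih := hom_W L A (by simpa using hl) hL
    simp only [W, wc, add_mul]
    refine IsHomogeneous.mul ?_ ih
    split_ifs
    · simpa using isHomogeneous_one σ k
    · simpa using (h x (by simp)).add (isHomogeneous_sum L hL)
    · simpa using (h y (by simp)).add (isHomogeneous_sum L hL)
  | [], _ :: _, h, _ => by simp at h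
  | _ :: _, [], h, _ => by simp at h
  | [_], _ :: _ :: _, h, _ => by simp at h
  | _ :: _ :: _, [_], h, _ => by simp at h

lemma hom_pr {δ : ℕ} : ∀ (L : List (MvPolynomial σ k)) (A : List Bool), L.length = A.length →
    (∀ p ∈ L, p.IsHomogeneous δ) → (pr L A).IsHomogeneous (A.count true * δ)
  | [], [], _, _ => by simpa [pr] using isHomogeneous_one σ k
  | x :: L, a :: A, hl, h => by
    have hL : ∀ p ∈ L, p.IsHomogeneous δ := fun q hq => h q (by simp [hq])
    have ih := hom_pr L A (by simpa using hl) hL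
    cases a
    · simpa [pr] using ih
    · simp only [pr, if_true, List.count_cons_self]
      rw [show (List.count true A + 1) * δ = δ + List.count true A * δ by ring]
      exact (h x (by simp)).mul ih
  | [], _ :: _, h, _ => by simp at h
  | _ :: _, [], h, _ => by simp at h

lemma hom_u : ∀ (j : ℕ) {δ : ℕ} (L : List (MvPolynomial σ k)) (A : List Bool),
    L.length = A.length → (∀ p ∈ L, p.IsHomogeneous δ) →
    (u j L A).IsHomogeneous (A.count true * δ)
  | 0, _, L, A, hl, h => hom_pr L A hl h
  | j + 1, δ, L, A, hl, h => by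
    have h1 := hom_W L A hl h
    have h2 := hom_u j (δ := 2 * δ) (ZI L A) (act A) (length_ZI L A hl) (hom_ZI L A h)
    simp only [u]
    rw [count_eq A, show (wc A + 2 * List.count true (act A)) * δ =
      wc A * δ + List.count true (act A) * (2 * δ) by ring]
    exact h1.mul h2

lemma hom_v : ∀ (j : ℕ) {δ : ℕ} (L : List (MvPolynomial σ k)) (A : List Bool),
    L.length = A.length → (∀ p ∈ L, p.IsHomogeneous δ) → Fj j A →
    (v j L A).IsHomogeneous ((A.count true + 2 ^ j) * δ)
  | 0, _, [], [], _, _, hF => by simp [Fj] at hF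
  | 0, _, [], _ :: _, h, _, _ => by simp at h
  | 0, _, _ :: _, [], h, _, _ => by simp at h
  | 0, δ, x :: L, a :: A, hl, h, hF => by
    have hL : ∀ p ∈ L, p.IsHomogeneous δ := fun q hq => h q (by simp [hq])
    simp only [Fj] at hF
    subst hF
    simp only [v, pow_zero]
    rw [show (List.count true (false :: A) + 1) * δ = δ + List.count true A * δ by
      simp; ring]
    exact ((h x (by simp)).add (isHomogeneous_sum L hL)).mul (hom_pr L A (by simpa using hl) hL)
  | j + 1, δ, L, A, hl, h, hF => by
    have h1 := hom_W L A hl h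
    have h2 := hom_v j (δ := 2 * δ) (ZI L A) (act A) (length_ZI L A hl) (hom_ZI L A h) hF
    simp only [v]
    rw [count_eq A, show (wc A + 2 * List.count true (act A) + 2 ^ (j + 1)) * δ =
      wc A * δ + (List.count true (act A) + 2 ^ j) * (2 * δ) by ring]
    exact h1.mul h2

end P346
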