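import Vale.Agent.P346.Weight
import Vale.Agent.P346.Def

/-! The hard polynomial is an affine projection of iterated matrix multiplication. -/

open MvPolynomial

namespace P346

variable {S : Type*} [CommRing S]

lemma E_succ_eq_sum (L : List S) (c : ℕ) : ∀ N, L.length ≤ N →
    E L (c + 1) = ∑ t ∈ Finset.range N, L.getD t 0 * E (L.drop (t + 1)) c := by
  induction L with
  | nil => intro N _; simp
  | cons x L ih =>
    intro N hN
    cases N with
    | zero => simp at hN
    | succ N =>
      rw [Finset.sum_range_succ', E_cons_succ, ih N (by simpa using hN)]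
      simp

variable {n : ℕ}

/-- transition matrix -/
def MM (n : ℕ) (L : List S) : Matrix (Fin n) (Fin n) S :=
  Matrix.of fun i i' => if (i : ℕ) < i' then L.getD ((i' : ℕ) - 1) 0 else 0

/-- final matrix of a block -/
def NN (n : ℕ) (L : List S) : Matrix (Fin n) (Fin n) S :=
  Matrix.of fun i i' => if (i' : ℕ) = 0 then E (L.drop i) 1 else 0

/-- values at the states -/
def ww (n : ℕ) (L : List S) (c : ℕ) : Fin n → S := fun i => E (L.drop i) c

lemma sum_shift (L : List S) (c i q : ℕ) (hq : (L.drop i).length ≤ q) :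
    ∑ t ∈ Finset.range (i + 1 + q), (if i < t then L.getD (t - 1) 0 else 0) * E (L.drop t) c =
      E (L.drop i) (c + 1) := by
  rw [E_succ_eq_sum (L.drop i) c q hq, Finset.sum_range_add, Finset.sum_eq_zero, zero_add]
  · refine Finset.sum_congr rfl fun t _ => ?_
    have h1 : (L.drop i).getD t 0 = L.getD (i + 1 + t - 1) 0 := by
      rw [show i + 1 + t - 1 = i + t by omega]
      simp [List.getD_eq_getElem?_getD, List.getElem?_drop]
    rw [if_pos (by omega), List.drop_drop, h1, show i + (t + 1) = i + 1 + t by omega]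
  · intro t ht
    rw [Finset.mem_range] at ht
    rw [if_neg (by omega), zero_mul]

lemma MM_mulVec (L : List S) (c : ℕ) (hL : L.length + 1 ≤ n) :
    (MM n L).mulVec (ww n L c) = ww n L (c + 1) := by
  funext i
  have h1 : (MM n L).mulVec (ww n L c) i =
      ∑ t ∈ Finset.range n, (if (i : ℕ) < t then L.getD (t - 1) 0 else 0) * E (L.drop t) c := by
    rw [← Fin.sum_univ_eq_sum_range (fun t => (if (i : ℕ) < t then L.getD (t - 1) 0 else 0) *
      E (L.drop t) c)]
    rfl
  obtain ⟨q, hq⟩ : ∃ q, n = ((i : ℕ) + 1) + q := ⟨n - (i + 1), by have := i.2; omega⟩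
  have h2 := sum_shift L c i q (by rw [List.length_drop]; omega)
  rw [← hq] at h2
  rw [h1, h2]
  rfl

lemma NN_mulVec [NeZero n] (L : List S) (v : Fin n → S) :
    (NN n L).mulVec v = v 0 • ww n L 1 := by
  funext i
  simp only [Matrix.mulVec, dotProduct, NN, Matrix.of_apply, ite_mul, zero_mul, Pi.smul_apply,
    smul_eq_mul, ww]
  rw [Finset.sum_eq_single 0]
  · simp [mul_comm]
  · intro b _ hb
    rw [if_neg]
    intro h
    exact hb (Fin.ext (by simpa using h))
  · simp

/-- the matrices of a block -/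
def blk (n : ℕ) (L : List S) (b : ℕ) : List (Matrix (Fin n) (Fin n) S) :=
  List.replicate (b - 1) (MM n L) ++ [NN n L]

lemma blk_mulVec [NeZero n] (L : List S) (hL : L.length + 1 ≤ n) (b : ℕ) (v : Fin n → S) :
    (blk n L (b + 1)).prod.mulVec v = v 0 • ww n L (b + 1) := by
  have h : ∀ c, (MM n L ^ c).mulVec (ww n L 1) = ww n L (c + 1) := by
    intro c
    induction c with
    | zero => simp
    | succ c ih => rw [pow_succ', ← Matrix.mulVec_mulVec, ih, MM_mulVec L _ hL]
  rw [blk, List.prod_append, List.prod_replicate, List.prod_singleton, ← Matrix.mulVec_mulVec,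
    NN_mulVec, Matrix.mulVec_smul, Nat.add_sub_cancel, h]

lemma blocks_mulVec [NeZero n] (b : ℕ) (v : Fin n → S) (Ls : List (List S))
    (hL : ∀ L ∈ Ls, L.length + 1 ≤ n) :
    ((Ls.map fun L => blk n L (b + 1)).flatten.prod.mulVec v) 0 =
      (Ls.map fun L => E L (b + 1)).prod * v 0 := by
  induction Ls with
  | nil => simp
  | cons L Ls ih =>
    rw [List.map_cons, List.flatten_cons, List.prod_append, ← Matrix.mulVec_mulVec,
      blk_mulVec L (hL L (by simp)), Pi.smul_apply, ih fun L' h' => hL L' (by simp [h']),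
      List.map_cons, List.prod_cons]
    simp only [ww, Fin.val_zero, List.drop_zero, smul_eq_mul]
    ring

lemma length_blocks (b : ℕ) (Ls : List (List S)) :
    ((Ls.map fun L => blk n L (b + 1)).flatten).length = Ls.length * (b + 1) := by
  induction Ls with
  | nil => simp
  | cons L Ls ih =>
    rw [List.map_cons, List.flatten_cons, List.length_append, ih]
    simp [blk]
    ring

section deg

variable {σ : Type*} {r m : ℕ} (e : Fin r → Fin m → σ)

lemma totalDegree_list_sum_le' (L : List (MvPolynomial σ (ZMod 2)))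
    (h : ∀ p ∈ L, p.totalDegree ≤ 1) : L.sum.totalDegree ≤ 1 := by
  induction L with
  | nil => simp
  | cons p L ih =>
    rw [List.sum_cons]
    exact (totalDegree_add _ _).trans
      (max_le (h p (by simp)) (ih fun q hq => h q (by simp [hq])))

lemma deg_blk [NeZero n] (L : List (MvPolynomial σ (ZMod 2))) (h : ∀ p ∈ L, p.totalDegree ≤ 1)
    (b : ℕ) : ∀ M ∈ blk n L b, ∀ i i', (M i i').totalDegree ≤ 1 := by
  intro M hM i i'
  rw [blk, List.mem_append, List.mem_singleton] at hM
  rcases hM with hM | rfl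
  · rw [List.eq_of_mem_replicate hM]
    simp only [MM, Matrix.of_apply]
    split_ifs
    · rw [List.getD_eq_getElem?_getD]
      cases hg : L[(i' : ℕ) - 1]? with
      | none => simp
      | some p => exact h p (List.mem_of_getElem? hg)
    · simp
  · simp only [NN, Matrix.of_apply]
    split_ifs
    · rw [E_one]
      exact totalDegree_list_sum_le' _ fun p hp => h p (List.mem_of_mem_drop hp)
    · simp

theorem exists_proj [NeZero n] (j : ℕ) (hm : m + 1 ≤ n) (hr : r * 2 ^ j ≤ n) :
    ∃ Q : Fin n → Matrix (Fin n) (Fin n) (MvPolynomial σ (ZMod 2)),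
      (∀ k a b, (Q k a b).totalDegree ≤ 1) ∧ (List.ofFn Q).prod 0 0 = fd e j := by
  obtain ⟨b, hb⟩ : ∃ b, 2 ^ j = b + 1 := ⟨2 ^ j - 1, by have := Nat.two_pow_pos j; omega⟩
  set Ls : List (List (MvPolynomial σ (ZMod 2))) := List.ofFn fun i => XL e i with hLs
  have hlen : ∀ L ∈ Ls, L.length = m := by
    intro L hL
    obtain ⟨i, rfl⟩ := (List.mem_ofFn' _ _).1 hL
    simp [XL]
  have hdeg : ∀ L ∈ Ls, ∀ p ∈ L, p.totalDegree ≤ 1 := by
    intro L hL p hp
    obtain ⟨i, rfl⟩ := (List.mem_ofFn' _ _).1 hL
    exact (hom_XL e i p hp).totalDegree_le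
  obtain ⟨Q, hQ⟩ := exists_ofFn (m := n)
    ((Ls.map fun L => blk n L (b + 1)).flatten ++
      List.replicate (n - r * (b + 1)) (1 : Matrix (Fin n) (Fin n) (MvPolynomial σ (ZMod 2)))) (by
      rw [List.length_append, length_blocks, List.length_replicate, hLs, List.length_ofFn]
      rw [hb] at hr
      omega)
  refine ⟨Q, fun k a a' => ?_, ?_⟩
  · have hk : Q k ∈ List.ofFn Q := (List.mem_ofFn' _ _).2 ⟨k, rfl⟩
    rw [hQ, List.mem_append] at hk
    rcases hk with hk | hk
    · obtain ⟨l, hl, hk⟩ := List.mem_flatten.1 hk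
      obtain ⟨L, hL, rfl⟩ := List.mem_map.1 hl
      exact deg_blk L (hdeg L hL) _ _ hk a a'
    · rw [List.eq_of_mem_replicate hk, Matrix.one_apply]
      split_ifs <;> simp
  · have h1 : (List.ofFn Q).prod 0 0 = ((List.ofFn Q).prod.mulVec (Pi.single 0 1)) 0 := by
      simp
    rw [h1, hQ, List.prod_append, List.prod_replicate, one_pow, mul_one,
      blocks_mulVec b _ Ls fun L hL => by rw [hlen L hL]; exact hm]
    rw [Pi.single_eq_same, mul_one, fd, hb, hLs, List.map_ofFn, List.prod_ofFn]
    rfl

end deg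

end P346
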