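import Vale.Agent.P346.Approx
import Vale.Agent.P346.Proj

/-! The lower bound. -/

open MvPolynomial

namespace P346

section hom

variable {K V : Type} [CommRing K] (C : Circ K V) {R R' : Type} [CommRing R] [Algebra K R]
  [CommRing R'] [Algebra K R'] (φ : R →ₐ[K] R') (x : V → R)

lemma map_lin {ι : Type} (L : List (K × ι)) (f : ι → R) (f' : ι → R') (h : ∀ i, φ (f i) = f' i) :
    φ (L.map fun p => p.1 • f p.2).sum = (L.map fun p => p.1 • f' p.2).sum := by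
  induction L with
  | nil => simp
  | cons p L ih => simp [h, ih]

lemma map_pro {ι : Type} (L : List ι) (f : ι → R) (f' : ι → R') (h : ∀ i, φ (f i) = f' i) :
    φ (L.map f).prod = (L.map f').prod := by
  induction L with
  | nil => simp
  | cons p L ih => simp [h, ih]

lemma map_val : φ (C.val x) = C.val (fun v => φ (x v)) := by
  have h0 : ∀ i, φ (C.v0 x i) = C.v0 (fun v => φ (x v)) i := by
    intro i
    unfold Circ.v0
    split
    · rfl
    · exact AlgHom.commutes φ _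
  have h1 : ∀ i, φ (C.v1 x i) = C.v1 (fun v => φ (x v)) i := fun i => map_lin φ _ _ _ h0
  have h2 : ∀ i, φ (C.v2 x i) = C.v2 (fun v => φ (x v)) i := fun i => map_pro φ _ _ _ h1
  have h3 : ∀ i, φ (C.v3 x i) = C.v3 (fun v => φ (x v)) i := fun i => map_lin φ _ _ _ h2
  have h4 : ∀ i, φ (C.v4 x i) = C.v4 (fun v => φ (x v)) i := fun i => map_pro φ _ _ _ h3
  exact map_lin φ _ _ _ h4

end hom

lemma aeval_IMM {K : Type} [CommRing K] {w d : ℕ} [NeZero w] {σ : Type}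
    (Q : Fin d → Matrix (Fin w) (Fin w) (MvPolynomial σ K)) :
    aeval (fun p : Fin d × Fin w × Fin w => Q p.1 p.2.1 p.2.2) (IMM K w d) =
      (List.ofFn Q).prod 0 0 := by
  set φ : MvPolynomial (Fin d × Fin w × Fin w) K →+* MvPolynomial σ K :=
    (aeval fun p : Fin d × Fin w × Fin w => Q p.1 p.2.1 p.2.2).toRingHom with hφ
  have h1 : ∀ P : Matrix (Fin w) (Fin w) (MvPolynomial (Fin d × Fin w × Fin w) K),
      φ (P 0 0) = (φ.mapMatrix P) 0 0 := fun P => rfl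
  have h2 : aeval (fun p : Fin d × Fin w × Fin w => Q p.1 p.2.1 p.2.2) (IMM K w d) =
    φ (IMM K w d) := rfl
  rw [h2, IMM, h1, map_list_prod, List.map_ofFn]
  have h3 : (⇑φ.mapMatrix ∘ fun k : Fin d => (Matrix.of fun a b => X (k, a, b) :
      Matrix (Fin w) (Fin w) (MvPolynomial (Fin d × Fin w × Fin w) K))) = Q := by
    funext k
    ext a b
    simp [hφ]
  rw [h3]

/-- exponential counting bound -/
theorem size_lower {n : ℕ} [NeZero n] (C : Circ (ZMod 2) (Fin n × Fin n × Fin n))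
    (hC : C.poly = IMM (ZMod 2) n n) (j r ℓ : ℕ) (hm : 2 * 4 ^ j + 1 ≤ n) (hr : r * 2 ^ j ≤ n)
    (hℓ : ℓ * ℓ < r * 2 ^ j) : 2 ^ ℓ ≤ 4 ^ r * C.size := by
  classical
  set m := 2 * 4 ^ j with hmdef
  let e : Fin r → Fin m → (Fin r ×ₗ Fin m) := fun i s => toLex (i, s)
  have he : ∀ i, StrictMono (e i) := fun i s t hst => by
    exact Prod.Lex.toLex_lt_toLex.2 (Or.inr ⟨rfl, hst⟩)
  have hinj : Function.Injective2 e := by
    intro i i' s s' h
    have := toLex.injective h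
    simpa using this
  obtain ⟨Q, hQ, hQ'⟩ := exists_proj (n := n) e j hm hr
  have hval : C.val (fun p : Fin n × Fin n × Fin n => Q p.1 p.2.1 p.2.2) = fd e j := by
    rw [← hQ', ← aeval_IMM Q, ← hC, Circ.poly, map_val]
    simp
  obtain ⟨g, hg, hcount⟩ := approx C (fun p : Fin n × Fin n × Fin n => Q p.1 p.2.1 p.2.2) ℓ
    (fun p => hQ _ _ _)
  rw [hval] at hcount
  have hw := weight_bound e he hinj j g (hg.trans_lt hℓ)
  rw [Fintype.card_subtype (fun y : (Fin r ×ₗ Fin m) → ZMod 2 =>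
    eval y (fd e j) ≠ eval y g)] at hw
  have hF := card_Fj j
  set Z := (Finset.univ.filter fun y : (Fin r ×ₗ Fin m) → ZMod 2 =>
    eval y (fd e j) ≠ eval y g).card with hZ
  have hY : Fintype.card ((Fin r ×ₗ Fin m) → ZMod 2) = 2 ^ (m * r) := by
    rw [Fintype.card_fun, ZMod.card]
    congr 1
    have : Fintype.card (Fin r ×ₗ Fin m) = Fintype.card (Fin r × Fin m) :=
      Fintype.card_congr ofLex
    rw [this]
    simp [mul_comm]
  rw [hY] at hcount
  have h1 : 2 ^ (m * r) ≤ 4 ^ r * Z := by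
    calc 2 ^ (m * r) = (2 ^ m) ^ r := pow_mul _ _ _
      _ ≤ (4 * Fintype.card {A : Fin m → Bool // Fj j (List.ofFn A)}) ^ r :=
        Nat.pow_le_pow_left hF r
      _ = 4 ^ r * Fintype.card {A : Fin m → Bool // Fj j (List.ofFn A)} ^ r := mul_pow _ _ _
      _ ≤ 4 ^ r * Z := Nat.mul_le_mul_left _ hw
  have h2 : 2 ^ (m * r) * 2 ^ ℓ ≤ 2 ^ (m * r) * (4 ^ r * C.size) := by
    calc 2 ^ (m * r) * 2 ^ ℓ ≤ 4 ^ r * Z * 2 ^ ℓ := Nat.mul_le_mul_right _ h1
      _ = 4 ^ r * (Z * 2 ^ ℓ) := by ring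
      _ ≤ 4 ^ r * ((C.n2 + C.n4) * 2 ^ (m * r)) := Nat.mul_le_mul_left _ hcount
      _ ≤ 4 ^ r * (C.size * 2 ^ (m * r)) := by
        refine Nat.mul_le_mul_left _ (Nat.mul_le_mul_right _ ?_)
        unfold Circ.size; omega
      _ = 2 ^ (m * r) * (4 ^ r * C.size) := by ring
  exact Nat.le_of_mul_le_mul_left h2 (by positivity)

theorem size_lower_real {n : ℕ} [NeZero n] (C : Circ (ZMod 2) (Fin n × Fin n × Fin n))
    (hC : C.poly = IMM (ZMod 2) n n) : (2 : ℝ) ^ (√n / 23 - 1) ≤ C.size := by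
  have hs1 : (1 : ℝ) ≤ C.size := by
    have : 1 ≤ C.size := by unfold Circ.size; omega
    exact_mod_cast this
  rcases lt_or_ge n 513 with hn | hn
  · refine le_trans (Real.rpow_le_one_of_one_le_of_nonpos (by norm_num) ?_) hs1
    have h1 : √(n : ℝ) ≤ 23 := by
      rw [Real.sqrt_le_left (by norm_num)]
      have : (n : ℝ) ≤ 512 := by exact_mod_cast Nat.lt_succ_iff.1 hn
      linarith
    linarith
  · set j := Nat.log 4 ((n - 1) / 2) with hj
    have hne : (n - 1) / 2 ≠ 0 := by omega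
    have hj1 : 4 ^ j ≤ (n - 1) / 2 := Nat.pow_log_le_self 4 hne
    have hj2 : (n - 1) / 2 < 4 ^ (j + 1) := Nat.lt_pow_succ_log_self (by norm_num) _
    have hj4 : 4 ≤ j := by
      rw [hj]
      refine (Nat.le_log_iff_pow_le (by norm_num) hne).2 ?_
      have : 513 ≤ n := hn
      omega
    obtain ⟨i, hi⟩ : ∃ i, j = i + 4 := ⟨j - 4, by omega⟩
    have h4i : 4 ^ i = 2 ^ i * 2 ^ i := by
      rw [← mul_pow]; norm_num
    have h2i : 1 ≤ 2 ^ i := Nat.one_le_two_pow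
    have hjm : 4 ^ j = 256 * (2 ^ i * 2 ^ i) := by rw [hi, pow_add, h4i]; ring
    have h2j : 2 ^ j = 16 * 2 ^ i := by rw [hi, pow_add]; ring
    have hm : 2 * 4 ^ j + 1 ≤ n := by omega
    have hr : 2 ^ i * 2 ^ j ≤ n := by
      rw [h2j, show 2 ^ i * (16 * 2 ^ i) = 16 * (2 ^ i * 2 ^ i) by ring]
      omega
    obtain ⟨ℓ, hℓ⟩ : ∃ ℓ, 4 * 2 ^ i = ℓ + 1 := ⟨4 * 2 ^ i - 1, by omega⟩
    have hℓ2 : ℓ * ℓ < 2 ^ i * 2 ^ j := by
      rw [h2j]
      have : 2 ^ i * (16 * 2 ^ i) = (4 * 2 ^ i) * (4 * 2 ^ i) := by ring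
      rw [this, hℓ]
      nlinarith
    have key := size_lower C hC j (2 ^ i) ℓ hm hr hℓ2
    -- real form
    have hn2 : (n : ℝ) ≤ 2048 * ((2 : ℝ) ^ i * 2 ^ i) := by
      have : n ≤ 2 * 4 ^ (j + 1) := by omega
      rw [pow_succ, hjm] at this
      have h : n ≤ 2048 * (2 ^ i * 2 ^ i) := by omega
      exact_mod_cast h
    have hsq : √(n : ℝ) ≤ 46 * 2 ^ i := by
      rw [Real.sqrt_le_left (by positivity)]
      have : (0 : ℝ) ≤ 2 ^ i * 2 ^ i := by positivity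
      nlinarith
    have hexp : √(n : ℝ) / 23 - 1 ≤ (ℓ : ℝ) - 2 * 2 ^ i := by
      have : (4 : ℝ) * 2 ^ i = ℓ + 1 := by exact_mod_cast hℓ
      linarith
    refine (Real.rpow_le_rpow_of_exponent_le (by norm_num) hexp).trans ?_
    rw [Real.rpow_sub (by norm_num), div_le_iff₀ (by positivity)]
    have h1 : (2 : ℝ) ^ (2 * 2 ^ i : ℝ) = (4 : ℝ) ^ (2 ^ i) := by
      rw [Real.rpow_mul (by norm_num)]
      norm_num
      exact_mod_cast Real.rpow_natCast (4 : ℝ) (2 ^ i)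
    rw [h1, Real.rpow_natCast, mul_comm]
    exact_mod_cast key

end P346
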