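import Vale.Agent.P346.Def

/-! The upper bound: homogeneous `ΣΠΣΠΣ` circuits of size `n ^ O(√n)`. -/

open MvPolynomial

namespace P346

/-! ### circuits indexed by finite types -/

section mk

variable {K V : Type} [CommRing K] {L0 L1 L2 L3 L4 : Type} [Fintype L0] [Fintype L1] [Fintype L2]
  [Fintype L3] [Fintype L4] (leaf : L0 → V ⊕ K) (sum1 : L1 → List (K × L0)) (prod2 : L2 → List L1)
  (sum3 : L3 → List (K × L2)) (prod4 : L4 → List L3) (out : List (K × L4))

/-- a circuit given by functions on finite types -/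
noncomputable def mkC : Circ K V where
  n0 := Fintype.card L0
  n1 := Fintype.card L1
  n2 := Fintype.card L2
  n3 := Fintype.card L3
  n4 := Fintype.card L4
  leaf i := leaf ((Fintype.equivFin L0).symm i)
  sum1 i := (sum1 ((Fintype.equivFin L1).symm i)).map fun p => (p.1, Fintype.equivFin L0 p.2)
  prod2 i := (prod2 ((Fintype.equivFin L2).symm i)).map (Fintype.equivFin L1)
  sum3 i := (sum3 ((Fintype.equivFin L3).symm i)).map fun p => (p.1, Fintype.equivFin L2 p.2)
  prod4 i := (prod4 ((Fintype.equivFin L4).symm i)).map (Fintype.equivFin L3)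
  out := out.map fun p => (p.1, Fintype.equivFin L4 p.2)

variable {R : Type} [CommRing R] [Algebra K R] (x : V → R)

def w0 (i : L0) : R :=
  match leaf i with
  | .inl a => x a
  | .inr c => algebraMap K R c

def w1 (i : L1) : R := ((sum1 i).map fun p => p.1 • w0 leaf x p.2).sum
def w2 (i : L2) : R := ((prod2 i).map (w1 leaf sum1 x)).prod
def w3 (i : L3) : R := ((sum3 i).map fun p => p.1 • w2 leaf sum1 prod2 x p.2).sum
def w4 (i : L4) : R := ((prod4 i).map (w3 leaf sum1 prod2 sum3 x)).prod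

theorem mkC_val : (mkC leaf sum1 prod2 sum3 prod4 out).val x =
    (out.map fun p => p.1 • w4 leaf sum1 prod2 sum3 prod4 x p.2).sum := by
  have lin_map : ∀ {ι κ : Type} (e : ι ≃ κ) (L : List (K × ι)) (f : ι → R),
      ((L.map fun p => (p.1, e p.2)).map fun p => p.1 • f (e.symm p.2)).sum =
        (L.map fun p => p.1 • f p.2).sum := by
    intro ι κ e L f
    rw [List.map_map]
    congr 1
    exact List.map_congr_left fun p _ => by simp
  have pro_map : ∀ {ι κ : Type} (e : ι ≃ κ) (L : List ι) (f : ι → R),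
      ((L.map e).map fun p => f (e.symm p)).prod = (L.map f).prod := by
    intro ι κ e L f
    rw [List.map_map]
    congr 1
    exact List.map_congr_left fun p _ => by simp
  have h1 : ((mkC leaf sum1 prod2 sum3 prod4 out).v1 x : Fin (Fintype.card L1) → R) =
      fun i => w1 leaf sum1 x ((Fintype.equivFin L1).symm i) :=
    funext fun i => lin_map (Fintype.equivFin L0) (sum1 ((Fintype.equivFin L1).symm i))
      (w0 leaf x)
  have h2 : ((mkC leaf sum1 prod2 sum3 prod4 out).v2 x : Fin (Fintype.card L2) → R) =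
      fun i => w2 leaf sum1 prod2 x ((Fintype.equivFin L2).symm i) := by
    funext i
    have e : (mkC leaf sum1 prod2 sum3 prod4 out).v2 x i =
        (((prod2 ((Fintype.equivFin L2).symm i)).map (Fintype.equivFin L1)).map
          ((mkC leaf sum1 prod2 sum3 prod4 out).v1 x : Fin (Fintype.card L1) → R)).prod := rfl
    rw [e, h1]
    exact pro_map (Fintype.equivFin L1) _ (w1 leaf sum1 x)
  have h3 : ((mkC leaf sum1 prod2 sum3 prod4 out).v3 x : Fin (Fintype.card L3) → R) =
      fun i => w3 leaf sum1 prod2 sum3 x ((Fintype.equivFin L3).symm i) := by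
    funext i
    have e : (mkC leaf sum1 prod2 sum3 prod4 out).v3 x i =
        (((sum3 ((Fintype.equivFin L3).symm i)).map fun p => (p.1, Fintype.equivFin L2 p.2)).map
          fun p => p.1 • ((mkC leaf sum1 prod2 sum3 prod4 out).v2 x :
            Fin (Fintype.card L2) → R) p.2).sum := rfl
    rw [e, h2]
    exact lin_map (Fintype.equivFin L2) _ (w2 leaf sum1 prod2 x)
  have h4 : ((mkC leaf sum1 prod2 sum3 prod4 out).v4 x : Fin (Fintype.card L4) → R) =
      fun i => w4 leaf sum1 prod2 sum3 prod4 x ((Fintype.equivFin L4).symm i) := by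
    funext i
    have e : (mkC leaf sum1 prod2 sum3 prod4 out).v4 x i =
        (((prod4 ((Fintype.equivFin L4).symm i)).map (Fintype.equivFin L3)).map
          ((mkC leaf sum1 prod2 sum3 prod4 out).v3 x : Fin (Fintype.card L3) → R)).prod := rfl
    rw [e, h3]
    exact pro_map (Fintype.equivFin L3) _ (w3 leaf sum1 prod2 sum3 x)
  have e : (mkC leaf sum1 prod2 sum3 prod4 out).val x =
      ((out.map fun p => (p.1, Fintype.equivFin L4 p.2)).map
        fun p => p.1 • ((mkC leaf sum1 prod2 sum3 prod4 out).v4 x :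
          Fin (Fintype.card L4) → R) p.2).sum := rfl
  rw [e, h4]
  exact lin_map (Fintype.equivFin L4) _ (w4 leaf sum1 prod2 sum3 prod4 x)

omit [CommRing K] in
theorem mkC_homog (d0 : L0 → ℕ) (d1 : L1 → ℕ) (d2 : L2 → ℕ) (d3 : L3 → ℕ) (d4 : L4 → ℕ) (d5 : ℕ)
    (h0 : ∀ i, (∃ a, leaf i = .inl a ∧ d0 i = 1) ∨ (∃ c, leaf i = .inr c ∧ d0 i = 0))
    (h1 : ∀ i, ∀ p ∈ sum1 i, d0 p.2 = d1 i)
    (h2 : ∀ i, d2 i = ((prod2 i).map d1).sum)
    (h3 : ∀ i, ∀ p ∈ sum3 i, d2 p.2 = d3 i)
    (h4 : ∀ i, d4 i = ((prod4 i).map d3).sum)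
    (h5 : ∀ p ∈ out, d4 p.2 = d5) : (mkC leaf sum1 prod2 sum3 prod4 out).Homog := by
  refine ⟨fun i => d0 ((Fintype.equivFin L0).symm i), fun i => d1 ((Fintype.equivFin L1).symm i),
    fun i => d2 ((Fintype.equivFin L2).symm i), fun i => d3 ((Fintype.equivFin L3).symm i),
    fun i => d4 ((Fintype.equivFin L4).symm i), d5, fun i => h0 _, ?_, ?_, ?_, ?_, ?_⟩
  · intro i p hp
    obtain ⟨p', hp', rfl⟩ := List.mem_map.1 hp
    simpa using h1 _ p' hp'
  · intro i
    simp only [mkC, List.map_map]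
    rw [h2]
    congr 1
    exact List.map_congr_left fun p _ => by simp
  · intro i p hp
    obtain ⟨p', hp', rfl⟩ := List.mem_map.1 hp
    simpa using h3 _ p' hp'
  · intro i
    simp only [mkC, List.map_map]
    rw [h4]
    congr 1
    exact List.map_congr_left fun p _ => by simp
  · intro p hp
    obtain ⟨p', hp', rfl⟩ := List.mem_map.1 hp
    simpa using h5 p' hp'

end mk

/-! ### expansion of matrix products along paths -/

section paths

variable {R : Type*} [CommRing R] {w : ℕ}

/-- weight of a path -/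
def pw {q : ℕ} (M : Fin q → Matrix (Fin w) (Fin w) R) (γ : Fin (q + 1) → Fin w) : R :=
  ∏ s : Fin q, M s (γ s.castSucc) (γ s.succ)

theorem prod_paths : ∀ (q : ℕ) (M : Fin q → Matrix (Fin w) (Fin w) R) (a b : Fin w),
    (List.ofFn M).prod a b =
      ∑ γ : Fin (q + 1) → Fin w, if γ 0 = a ∧ γ (Fin.last q) = b then pw M γ else 0
  | 0, M, a, b => by
    rw [List.ofFn_zero, List.prod_nil, Matrix.one_apply,
      ← (Equiv.funUnique (Fin 1) (Fin w)).symm.sum_comp]
    simp only [pw, Finset.univ_eq_empty, Finset.prod_empty]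
    rw [Finset.sum_eq_single a]
    · simp
    · intro c _ hc
      simp [hc]
    · simp
  | q + 1, M, a, b => by
    have hR : (∑ γ : Fin (q + 1 + 1) → Fin w,
        if γ 0 = a ∧ γ (Fin.last (q + 1)) = b then pw M γ else 0) =
        ∑ γ : Fin (q + 1) → Fin w, if γ (Fin.last q) = b then
          M 0 a (γ 0) * pw (fun s => M s.succ) γ else 0 := by
      rw [← (Fin.consEquiv fun _ : Fin (q + 2) => Fin w).sum_comp, Fintype.sum_prod_type,
        Finset.sum_eq_single a]
      · refine Finset.sum_congr rfl fun γ _ => ?_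
        have e1 : (Fin.consEquiv fun _ : Fin (q + 2) => Fin w) (a, γ) 0 = a := rfl
        have e2 : (Fin.consEquiv fun _ : Fin (q + 2) => Fin w) (a, γ) (Fin.last (q + 1)) =
            γ (Fin.last q) := rfl
        rw [e1, e2]
        simp only [true_and]
        split_ifs
        · rw [pw, pw, Fin.prod_univ_succ]
          rfl
        · rfl
      · intro c _ hc
        refine Finset.sum_eq_zero fun γ _ => ?_
        rw [if_neg]
        exact fun h => hc h.1
      · simp
    rw [hR, List.ofFn_succ, List.prod_cons, Matrix.mul_apply]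
    simp only [prod_paths q (fun s => M s.succ), Finset.mul_sum]
    rw [Finset.sum_comm]
    refine Finset.sum_congr rfl fun γ _ => ?_
    rw [Finset.sum_eq_single (γ 0)]
    · simp
    · intro c _ hc
      rw [if_neg (fun h => hc h.1.symm), mul_zero]
    · simp

/-- padding with identity matrices -/
theorem prod_pad (n c : ℕ) (X : Fin n → Matrix (Fin w) (Fin w) R) :
    (List.ofFn fun k : Fin (n + c) =>
      if h : (k : ℕ) < n then X ⟨k, h⟩ else 1).prod = (List.ofFn X).prod := by
  rw [List.ofFn_add, List.prod_append]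
  have h2 : (List.ofFn fun i : Fin c => if h : ((Fin.natAdd n i : Fin (n + c)) : ℕ) < n then
      X ⟨(Fin.natAdd n i : Fin (n + c)), h⟩ else 1).prod = 1 := by
    apply List.prod_eq_one
    intro M hM
    obtain ⟨i, rfl⟩ := (List.mem_ofFn' _ _).1 hM
    simp only
    rw [dif_neg (by simp)]
  rw [h2, mul_one]
  congr 2
  funext i
  rw [dif_pos (by simp)]
  rfl

end paths

/-! ### the circuit -/

section circuit

variable (K : Type) [CommRing K] (n q : ℕ) [NeZero n]

/-- leaf with the entry `(a, b)` of the `(t q + s)`-th matrix, padded by identity matrices -/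
def uLeaf (i : Fin q × Fin q × Fin n × Fin n) : (Fin n × Fin n × Fin n) ⊕ K :=
  if h : (i.1 : ℕ) * q + i.2.1 < n then .inl (⟨(i.1 : ℕ) * q + i.2.1, h⟩, i.2.2)
  else .inr (if i.2.2.1 = i.2.2.2 then 1 else 0)

def uProd2 (i : Fin q × (Fin (q + 1) → Fin n)) : List (Fin q × Fin q × Fin n × Fin n) :=
  List.ofFn fun s : Fin q => (i.1, s, i.2 s.castSucc, i.2 s.succ)

noncomputable def uPaths (a b : Fin n) : List (Fin (q + 1) → Fin n) :=
  (Finset.univ.filter fun γ : Fin (q + 1) → Fin n => γ 0 = a ∧ γ (Fin.last q) = b).toList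

noncomputable def uSum3 (i : Fin q × Fin n × Fin n) :
    List (K × (Fin q × (Fin (q + 1) → Fin n))) :=
  (uPaths n q i.2.1 i.2.2).map fun γ => (1, (i.1, γ))

def uProd4 (β : Fin (q + 1) → Fin n) : List (Fin q × Fin n × Fin n) :=
  List.ofFn fun t : Fin q => (t, β t.castSucc, β t.succ)

noncomputable def uOut : List (K × (Fin (q + 1) → Fin n)) :=
  (uPaths n q 0 0).map fun β => (1, β)

/-- the circuit for `IMM_{n,n}` with `q` blocks of `q` matrices -/
noncomputable def uCirc : Circ K (Fin n × Fin n × Fin n) :=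
  mkC (uLeaf K n q) (fun i => [(1, i)]) (uProd2 n q) (uSum3 K n q) (uProd4 n q) (uOut K n q)

theorem uCirc_homog : (uCirc K n q).Homog := by
  refine mkC_homog _ _ _ _ _ _
    (fun i => if (i.1 : ℕ) * q + i.2.1 < n then 1 else 0)
    (fun i => if (i.1 : ℕ) * q + i.2.1 < n then 1 else 0)
    (fun i => (List.ofFn fun s : Fin q => if (i.1 : ℕ) * q + s < n then 1 else 0).sum)
    (fun i => (List.ofFn fun s : Fin q => if (i.1 : ℕ) * q + s < n then 1 else 0).sum)
    (fun _ => (List.ofFn fun t : Fin q =>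
      (List.ofFn fun s : Fin q => if (t : ℕ) * q + s < n then 1 else 0).sum).sum)
    ((List.ofFn fun t : Fin q =>
      (List.ofFn fun s : Fin q => if (t : ℕ) * q + s < n then 1 else 0).sum).sum)
    ?_ ?_ ?_ ?_ ?_ ?_
  · intro i
    unfold uLeaf
    split_ifs with h
    · exact Or.inl ⟨_, rfl, rfl⟩
    · exact Or.inr ⟨_, rfl, rfl⟩
    · exact Or.inr ⟨_, rfl, rfl⟩
  · intro i p hp
    rw [List.mem_singleton] at hp
    rw [hp]
  · intro i
    simp only [uProd2, List.map_ofFn]
    rfl
  · intro i p hp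
    obtain ⟨γ, _, rfl⟩ := List.mem_map.1 hp
    rfl
  · intro β
    simp only [uProd4, List.map_ofFn]
    rfl
  · intro p _
    rfl

variable {n}

/-- the padded matrices -/
noncomputable def uMat (k : ℕ) : Matrix (Fin n) (Fin n) (MvPolynomial (Fin n × Fin n × Fin n) K) :=
  if h : k < n then Matrix.of fun a b => X (⟨k, h⟩, a, b) else 1

theorem sum_toList {R : Type*} [CommRing R] {ι : Type*} (s : Finset ι) (f : ι → R) :
    (s.toList.map f).sum = ∑ i ∈ s, f i := by
  rw [← Finset.sum_map_toList]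

theorem uCirc_poly (hq : n ≤ q * q) : (uCirc K n q).poly = IMM K n n := by
  rw [Circ.poly, uCirc, mkC_val]
  have h0 : ∀ i, w0 (uLeaf K n q) X i = uMat K ((i.1 : ℕ) * q + i.2.1) i.2.2.1 i.2.2.2 := by
    intro i
    unfold w0 uLeaf uMat
    split_ifs with h h'
    · rfl
    · rw [Matrix.one_apply, if_pos h']
      simp
    · rw [Matrix.one_apply, if_neg h']
      simp
  have h1 : ∀ i, w1 (uLeaf K n q) (fun i => [(1, i)]) X i =
      uMat K ((i.1 : ℕ) * q + i.2.1) i.2.2.1 i.2.2.2 := by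
    intro i
    unfold w1
    simp [h0]
  have h2 : ∀ i, w2 (uLeaf K n q) (fun i => [(1, i)]) (uProd2 n q) X i =
      pw (fun s : Fin q => uMat K ((i.1 : ℕ) * q + s)) i.2 := by
    intro i
    unfold w2 uProd2 pw
    rw [List.map_ofFn, List.prod_ofFn]
    exact Finset.prod_congr rfl fun s _ => h1 _
  have h3 : ∀ i, w3 (uLeaf K n q) (fun i => [(1, i)]) (uProd2 n q) (uSum3 K n q) X i =
      (List.ofFn fun s : Fin q => uMat (n := n) K ((i.1 : ℕ) * q + s)).prod i.2.1 i.2.2 := by
    intro i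
    unfold w3 uSum3 uPaths
    rw [List.map_map, prod_paths, ← Finset.sum_filter, sum_toList]
    refine Finset.sum_congr rfl fun γ _ => ?_
    simp only [Function.comp_apply, h2, one_smul]
  have h4 : ∀ β, w4 (uLeaf K n q) (fun i => [(1, i)]) (uProd2 n q) (uSum3 K n q) (uProd4 n q) X β =
      pw (fun t : Fin q => (List.ofFn fun s : Fin q => uMat (n := n) K ((t : ℕ) * q + s)).prod) β := by
    intro β
    unfold w4 uProd4 pw
    rw [List.map_ofFn, List.prod_ofFn]
    exact Finset.prod_congr rfl fun t _ => h3 _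
  have h5 : ((uOut K n q).map fun p => p.1 • w4 (uLeaf K n q) (fun i => [(1, i)]) (uProd2 n q)
      (uSum3 K n q) (uProd4 n q) X p.2).sum =
      (List.ofFn fun t : Fin q =>
        (List.ofFn fun s : Fin q => uMat (n := n) K ((t : ℕ) * q + s)).prod).prod 0 0 := by
    unfold uOut uPaths
    rw [List.map_map, prod_paths, ← Finset.sum_filter, sum_toList]
    refine Finset.sum_congr rfl fun γ _ => ?_
    simp only [Function.comp_apply, h4, one_smul]
  rw [h5, IMM]
  have h6 : (List.ofFn fun t : Fin q =>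
      (List.ofFn fun s : Fin q => uMat (n := n) K ((t : ℕ) * q + s)).prod).prod =
      (List.ofFn fun k : Fin (q * q) => uMat (n := n) K k).prod := by
    rw [List.ofFn_mul, List.prod_flatten, List.map_ofFn]
    rfl
  rw [h6]
  obtain ⟨c, hc⟩ := Nat.exists_eq_add_of_le hq
  have h7 := prod_pad n c (fun k : Fin n => (Matrix.of fun a b => X (k, a, b) :
      Matrix (Fin n) (Fin n) (MvPolynomial (Fin n × Fin n × Fin n) K)))
  rw [← h7]
  rw [show (List.ofFn fun k : Fin (q * q) => uMat (n := n) K k) =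
    List.ofFn fun k : Fin (n + c) => uMat (n := n) K k by rw [hc]]
  rfl

theorem uCirc_size : (uCirc K n q).size =
    q * (q * (n * n)) + q * (q * (n * n)) + q * n ^ (q + 1) + q * (n * n) + n ^ (q + 1) + 1 := by
  simp [uCirc, mkC, Circ.size]

end circuit

/-- the minimum size of a homogeneous circuit for `IMM_{n,n}` -/
noncomputable def sK (K : Type) [CommRing K] (n : ℕ) [NeZero n] : ℕ :=
  sInf {N | ∃ C : Circ K (Fin n × Fin n × Fin n), C.Homog ∧ C.poly = IMM K n n ∧ C.size = N}

theorem exists_homog (K : Type) [CommRing K] (n : ℕ) [NeZero n] :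
    ∃ C : Circ K (Fin n × Fin n × Fin n), C.Homog ∧ C.poly = IMM K n n :=
  ⟨uCirc K n n, uCirc_homog K n n, uCirc_poly K n (Nat.le_mul_self n)⟩

/-- the minimum is attained -/
theorem sK_spec (K : Type) [CommRing K] (n : ℕ) [NeZero n] :
    ∃ C : Circ K (Fin n × Fin n × Fin n), C.Homog ∧ C.poly = IMM K n n ∧ C.size = sK K n := by
  obtain ⟨C, h1, h2⟩ := exists_homog K n
  exact Nat.sInf_mem (s := {N | ∃ C : Circ K (Fin n × Fin n × Fin n),
    C.Homog ∧ C.poly = IMM K n n ∧ C.size = N}) ⟨_, C, h1, h2, rfl⟩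

theorem sK_le {K : Type} [CommRing K] {n : ℕ} [NeZero n] {C : Circ K (Fin n × Fin n × Fin n)}
    (h1 : C.Homog) (h2 : C.poly = IMM K n n) : sK K n ≤ C.size :=
  Nat.sInf_le ⟨C, h1, h2, rfl⟩

theorem upper_nat (K : Type) [CommRing K] (n : ℕ) [NeZero n] (hn : 2 ≤ n) :
    sK K n ≤ n ^ (Nat.sqrt n + 6) := by
  set q := Nat.sqrt n + 1 with hq
  have h1 : n ≤ q * q := (Nat.lt_succ_sqrt n).le
  have hq1 : 1 ≤ Nat.sqrt n := Nat.sqrt_pos.2 (by omega)
  have hqn : q ≤ n := by
    have := Nat.sqrt_lt_self (n := n) (by omega)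
    omega
  refine (sK_le (uCirc_homog K n q) (uCirc_poly K q h1)).trans ?_
  rw [uCirc_size]
  have e1 : q * (q * (n * n)) ≤ n ^ (q + 2) := by
    calc q * (q * (n * n)) ≤ n * (n * (n * n)) := by gcongr
      _ = n ^ 4 := by ring
      _ ≤ n ^ (q + 2) := Nat.pow_le_pow_right (by omega) (by omega)
  have e2 : q * n ^ (q + 1) ≤ n ^ (q + 2) := by
    calc q * n ^ (q + 1) ≤ n * n ^ (q + 1) := by gcongr
      _ = n ^ (q + 2) := by ring
  have e3 : q * (n * n) ≤ n ^ (q + 2) := by
    calc q * (n * n) ≤ n * (n * n) := by gcongr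
      _ = n ^ 3 := by ring
      _ ≤ n ^ (q + 2) := Nat.pow_le_pow_right (by omega) (by omega)
  have e4 : n ^ (q + 1) ≤ n ^ (q + 2) := Nat.pow_le_pow_right (by omega) (by omega)
  have e5 : 1 ≤ n ^ (q + 2) := Nat.one_le_pow _ _ (by omega)
  have e6 : 6 * n ^ (q + 2) ≤ n ^ (q + 5) := by
    have : 6 ≤ n ^ 3 := by
      calc 6 ≤ 2 ^ 3 := by norm_num
        _ ≤ n ^ 3 := Nat.pow_le_pow_left hn 3
    calc 6 * n ^ (q + 2) ≤ n ^ 3 * n ^ (q + 2) := by gcongr
      _ = n ^ (q + 5) := by ring
  have e7 : q + 5 = Nat.sqrt n + 6 := by omega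
  rw [← e7]
  omega

theorem upper_real (K : Type) [CommRing K] (n : ℕ) [NeZero n] (hn : 2 ≤ n) :
    (sK K n : ℝ) ≤ (n : ℝ) ^ (6 * √(n : ℝ)) := by
  have h := upper_nat K n hn
  have h1 : (1 : ℝ) ≤ n := by exact_mod_cast (by omega : 1 ≤ n)
  calc (sK K n : ℝ) ≤ ((n ^ (Nat.sqrt n + 6) : ℕ) : ℝ) := by exact_mod_cast h
    _ = (n : ℝ) ^ ((Nat.sqrt n + 6 : ℕ) : ℝ) := by
        rw [Real.rpow_natCast]
        push_cast
        rfl
    _ ≤ (n : ℝ) ^ (6 * √(n : ℝ)) := by
        apply Real.rpow_le_rpow_of_exponent_le h1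
        have h2 : ((Nat.sqrt n : ℕ) : ℝ) ≤ √(n : ℝ) := Real.nat_sqrt_le_real_sqrt
        have h3 : (6 / 5 : ℝ) ≤ √(n : ℝ) := by
          apply Real.le_sqrt_of_sq_le
          have : (2 : ℝ) ≤ n := by exact_mod_cast hn
          norm_num
          linarith
        push_cast
        linarith

end P346
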