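import Vale.Agent.P346.Coef

/-! Weight bound. -/

open MvPolynomial

namespace P346

variable {σ : Type*} {r m : ℕ}

lemma ds_ofFn {k : Type*} [CommRing k] [IsDomain k] (μ : MonomialOrder σ) :
    ∀ {m : ℕ} (f : Fin m → MvPolynomial σ k) (A : Fin m → Bool),
    ds μ (List.ofFn f) (List.ofFn A) = ∑ s, if A s then μ.degree (f s) else 0
  | 0, _, _ => by simp [ds]
  | m + 1, f, A => by
    rw [List.ofFn_succ, List.ofFn_succ, ds, ds_ofFn μ, Fin.sum_univ_succ]

/-- every list of length `m` is `ofFn` of something -/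
lemma exists_ofFn {α : Type*} {m : ℕ} (L : List α) (h : L.length = m) :
    ∃ f : Fin m → α, List.ofFn f = L := by
  subst h
  exact ⟨L.get, by simp⟩

section blocks

variable (e : Fin r → Fin m → σ)

/-- list of the variables of a block -/
noncomputable def XL (i : Fin r) : List (MvPolynomial σ (ZMod 2)) :=
  List.ofFn fun s => X (e i s)

/-- the hard polynomial -/
noncomputable def fd (j : ℕ) : MvPolynomial σ (ZMod 2) := ∏ i, E (XL e i) (2 ^ j)

noncomputable def uA (j : ℕ) (A : Fin r → Fin m → Bool) : MvPolynomial σ (ZMod 2) :=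
  ∏ i, u j (XL e i) (List.ofFn (A i))

noncomputable def vA (j : ℕ) (A : Fin r → Fin m → Bool) : MvPolynomial σ (ZMod 2) :=
  ∏ i, v j (XL e i) (List.ofFn (A i))

/-- number of selected elements -/
def kA (A : Fin r → Fin m → Bool) : ℕ := ∑ i, (List.ofFn (A i)).count true

lemma length_XL (i : Fin r) (A : Fin m → Bool) : (XL e i).length = (List.ofFn A).length := by
  simp [XL]

lemma hom_XL (i : Fin r) : ∀ p ∈ XL e i, p.IsHomogeneous 1 := by
  intro p hp
  obtain ⟨s, rfl⟩ := (List.mem_ofFn' _ _).1 hp
  exact isHomogeneous_X _ _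

lemma hom_fd (j : ℕ) : (fd e j).IsHomogeneous (r * 2 ^ j) := by
  have := IsHomogeneous.prod (Finset.univ : Finset (Fin r)) (fun i => E (XL e i) (2 ^ j))
    (fun _ => 2 ^ j) (fun i _ => by simpa using hom_E (XL e i) (2 ^ j) (hom_XL e i))
  simpa [fd] using this

lemma hom_uA (j : ℕ) (A : Fin r → Fin m → Bool) : (uA e j A).IsHomogeneous (kA A) := by
  exact IsHomogeneous.prod (Finset.univ : Finset (Fin r)) _
    (fun i => (List.ofFn (A i)).count true)
    (fun i _ => by simpa using hom_u j (XL e i) _ (length_XL e i (A i)) (hom_XL e i))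

lemma hom_vA (j : ℕ) (A : Fin r → Fin m → Bool) (hA : ∀ i, Fj j (List.ofFn (A i))) :
    (vA e j A).IsHomogeneous (kA A + r * 2 ^ j) := by
  have := IsHomogeneous.prod (Finset.univ : Finset (Fin r))
    (fun i => v j (XL e i) (List.ofFn (A i)))
    (fun i => (List.ofFn (A i)).count true + 2 ^ j)
    (fun i _ => by simpa using hom_v j (XL e i) _ (length_XL e i (A i)) (hom_XL e i) (hA i))
  rw [Finset.sum_add_distrib] at this
  simpa [vA, kA] using this

lemma fd_mul_uA (j : ℕ) (A : Fin r → Fin m → Bool) (hA : ∀ i, Fj j (List.ofFn (A i))) :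
    fd e j * uA e j A - vA e j A ∈ J σ := by
  rw [← Ideal.Quotient.eq]
  set q := Ideal.Quotient.mk (J σ)
  have h2 : (2 : MvPolynomial σ (ZMod 2) ⧸ J σ) = 0 := by
    have : (2 : MvPolynomial σ (ZMod 2)) = 0 := by
      rw [show (2 : MvPolynomial σ (ZMod 2)) = C 2 from (map_ofNat C 2).symm,
        show (2 : ZMod 2) = 0 from by decide, C_0]
    calc (2 : MvPolynomial σ (ZMod 2) ⧸ J σ) = q 2 := (map_ofNat q 2).symm
      _ = 0 := by rw [this, map_zero]
  rw [map_mul]
  simp only [fd, uA, vA, map_prod]
  rw [← Finset.prod_mul_distrib]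
  refine Finset.prod_congr rfl fun i _ => ?_
  rw [map_E, map_u, map_v]
  apply E_mul_u h2
  · simpa using length_XL e i (A i)
  · intro x hx
    obtain ⟨p, hp, rfl⟩ := List.mem_map.1 hx
    obtain ⟨s, rfl⟩ := (List.mem_ofFn' _ _).1 hp
    rw [← map_mul]
    exact Ideal.Quotient.eq_zero_iff_mem.2 (Ideal.subset_span ⟨e i s, rfl⟩)
  · exact hA i

section order

variable [LinearOrder σ] [Finite σ]

lemma Dec_XL (he : ∀ i, StrictMono (e i)) (i : Fin r) : Dec MonomialOrder.lex (XL e i) := by
  constructor
  · rw [XL, List.pairwise_ofFn]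
    intro s t hst
    rw [MonomialOrder.degree_X, MonomialOrder.degree_X]
    exact Finsupp.Lex.single_lt_iff.2 (he i hst)
  · intro p hp
    obtain ⟨s, rfl⟩ := (List.mem_ofFn' _ _).1 hp
    rw [MonomialOrder.degree_X, MonomialOrder.toSyn_lt_iff_ne_zero]
    simp

/-- exponent vector of a family of bit vectors -/
noncomputable def ev (B : Fin r → Fin m → Bool) : σ →₀ ℕ :=
  ∑ i, ∑ s, if B i s then Finsupp.single (e i s) 1 else 0

lemma deg_vA (he : ∀ i, StrictMono (e i)) (j : ℕ) (A : Fin r → Fin m → Bool)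
    (hA : ∀ i, Fj j (List.ofFn (A i))) :
    vA e j A ≠ 0 ∧ ∃ B : Fin r → Fin m → Bool,
      (∀ i, List.ofFn (B i) = flip j (List.ofFn (A i))) ∧
      MonomialOrder.lex.degree (vA e j A) = ev e B := by
  have h1 := fun i => deg_v (m := MonomialOrder.lex) j (XL e i) (List.ofFn (A i)) (Dec_XL e he i)
    (length_XL e i (A i)) (hA i)
  refine ⟨Finset.prod_ne_zero_iff.2 fun i _ => (h1 i).1, ?_⟩
  have h2 : ∀ i, ∃ B : Fin m → Bool, List.ofFn B = flip j (List.ofFn (A i)) := fun i =>
    exists_ofFn _ (by rw [length_flip]; simp)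
  choose B hB using h2
  refine ⟨B, hB, ?_⟩
  rw [vA, MonomialOrder.degree_prod fun i _ => (h1 i).1]
  refine Finset.sum_congr rfl fun i _ => ?_
  rw [(h1 i).2, ← hB i, XL, ds_ofFn]
  simp only [MonomialOrder.degree_X]

end order

lemma ev_apply [DecidableEq σ] (B : Fin r → Fin m → Bool) (x : σ) :
    ev e B x = ∑ p : Fin r × Fin m, if B p.1 p.2 = true ∧ e p.1 p.2 = x then 1 else 0 := by
  rw [Fintype.sum_prod_type]
  simp only [ev, Finsupp.finsetSum_apply]
  refine Finset.sum_congr rfl fun i _ => Finset.sum_congr rfl fun s _ => ?_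
  by_cases hB : B i s = true
  · simp [hB, Finsupp.single_apply]
  · simp [hB]

lemma ev_le_one (hinj : Function.Injective2 e) (B : Fin r → Fin m → Bool) : SF (ev e B) := by
  classical
  intro x
  rw [ev_apply, ← Finset.sum_filter, ← Finset.card_eq_sum_ones, Finset.card_le_one]
  rintro ⟨i, s⟩ h1 ⟨i', s'⟩ h2
  simp only [Finset.mem_filter, Finset.mem_univ, true_and] at h1 h2
  have := hinj (h1.2.trans h2.2.symm)
  simp [this.1, this.2]

lemma ev_at (hinj : Function.Injective2 e) (B : Fin r → Fin m → Bool) (i : Fin r) (s : Fin m) :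
    ev e B (e i s) = if B i s then 1 else 0 := by
  classical
  rw [ev_apply, Finset.sum_eq_single (i, s)]
  · simp
  · rintro ⟨i', s'⟩ _ hne
    rw [if_neg]
    rintro ⟨_, h⟩
    have := hinj h
    exact hne (Prod.ext this.1 this.2)
  · simp

lemma ev_inj (hinj : Function.Injective2 e) (B B' : Fin r → Fin m → Bool)
    (h : ev e B = ev e B') : B = B' := by
  funext i s
  have h1 := ev_at e hinj B i s
  have h2 := ev_at e hinj B' i s
  rw [h, h2] at h1
  by_cases hb : B i s = true <;> by_cases hb' : B' i s = true <;> simp_all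

section main

variable [LinearOrder σ] [Fintype σ]

/-- no nontrivial combination vanishes everywhere -/
lemma comb_eq_zero (he : ∀ i, StrictMono (e i)) (hinj : Function.Injective2 e) (j : ℕ)
    (g : MvPolynomial σ (ZMod 2)) (hg : g.totalDegree < r * 2 ^ j)
    (c : (Fin r → {A : Fin m → Bool // Fj j (List.ofFn A)}) → ZMod 2)
    (h0 : ∀ y : σ → ZMod 2, eval y (∑ A, C (c A) *
      ((fd e j - g) * uA e j (fun i => (A i).1))) = 0) : ∀ A, c A = 0 := by
  classical
  by_contra hne
  push Not at hne
  obtain ⟨A0, hA0⟩ := hne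
  set d := r * 2 ^ j with hd
  let bits : (Fin r → {A : Fin m → Bool // Fj j (List.ofFn A)}) → Fin r → Fin m → Bool :=
    fun A i => (A i).1
  have hbits : ∀ A i, Fj j (List.ofFn (bits A i)) := fun A i => (A i).2
  -- maximal weight
  obtain ⟨A1, hA1, hmax1⟩ := Finset.exists_max_image (Finset.univ.filter fun A => c A ≠ 0)
    (fun A => kA (bits A)) ⟨A0, by simp [hA0]⟩
  obtain ⟨A2, hA2, hmax2⟩ := Finset.exists_max_image
    (Finset.univ.filter fun A => c A ≠ 0 ∧ kA (bits A) = kA (bits A1))
    (fun A => MonomialOrder.lex.toSyn (MonomialOrder.lex.degree (vA e j (bits A))))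
    ⟨A1, by simpa using hA1⟩
  simp only [Finset.mem_filter, Finset.mem_univ, true_and] at hA1 hmax1 hA2 hmax2
  have hk1 : ∀ A, c A ≠ 0 → kA (bits A) ≤ kA (bits A2) := fun A hA => by
    rw [hA2.2]; exact hmax1 A hA
  have hk2 : ∀ A, c A ≠ 0 → kA (bits A) = kA (bits A2) →
      MonomialOrder.lex.toSyn (MonomialOrder.lex.degree (vA e j (bits A))) ≤
      MonomialOrder.lex.toSyn (MonomialOrder.lex.degree (vA e j (bits A2))) := fun A hA hk =>
    hmax2 A ⟨hA, by rw [hk, hA2.2]⟩
  obtain ⟨hv2, B2, hB2, hdeg2⟩ := deg_vA e he j (bits A2) (hbits A2)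
  set b := MonomialOrder.lex.degree (vA e j (bits A2)) with hb
  have hSF : SF b := by rw [hdeg2]; exact ev_le_one e hinj B2
  have hbdeg : b.degree = kA (bits A2) + d := by
    have h1 := hom_vA e j (bits A2) (hbits A2)
    have h2 := MonomialOrder.lex.coeff_degree_ne_zero_iff.2 hv2
    have := h1 h2
    rw [← hb] at this
    rw [Finsupp.degree_eq_weight_one]
    exact this
  -- total degree of `h`
  have hh : (fd e j - g).totalDegree ≤ d := by
    refine (totalDegree_sub _ _).trans (max_le ?_ hg.le)
    exact (hom_fd e j).totalDegree_le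
  -- the coefficient vanishes
  have hz : coeff b (∑ A, C (c A) * ((fd e j - g) * uA e j (bits A))) = 0 := by
    rw [coeff_eq_sum_eval b hSF]
    · exact Finset.sum_eq_zero fun C _ => h0 _
    · refine totalDegree_finsetSum_le fun A _ => ?_
      by_cases hA : c A = 0
      · simp [hA]
      · refine (totalDegree_mul _ _).trans ?_
        rw [totalDegree_C, zero_add]
        refine (totalDegree_mul _ _).trans ?_
        have h1 := (hom_uA e j (bits A)).totalDegree_le
        have h2 := hk1 A hA
        omega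
  have key : ∀ A, kA (bits A) = kA (bits A2) →
      coeff b ((fd e j - g) * uA e j (bits A)) = coeff b (vA e j (bits A)) := by
    intro A hk
    have e1 : coeff b ((fd e j - g) * uA e j (bits A)) =
        coeff b (vA e j (bits A)) + coeff b (fd e j * uA e j (bits A) - vA e j (bits A))
          - coeff b (g * uA e j (bits A)) := by
      rw [← coeff_add, ← coeff_sub]; congr 1; ring
    rw [e1, coeff_J (fd_mul_uA e j (bits A) (hbits A)) b hSF]
    rw [coeff_eq_zero_of_totalDegree_lt (f := g * uA e j (bits A)), add_zero, sub_zero]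
    refine lt_of_le_of_lt (totalDegree_mul _ _) ?_
    have h1 := (hom_uA e j (bits A)).totalDegree_le
    have : ∑ i ∈ b.support, b i = b.degree := rfl
    rw [this]
    omega
  rw [coeff_sum, Finset.sum_eq_single A2] at hz
  · rw [coeff_C_mul, key A2 rfl] at hz
    exact MonomialOrder.lex.coeff_degree_ne_zero_iff.2 hv2
      ((mul_eq_zero.1 hz).resolve_left hA2.1)
  · intro A _ hAne
    rw [coeff_C_mul]
    by_cases hA : c A = 0
    · simp [hA]
    · by_cases hk : kA (bits A) = kA (bits A2)
      · rw [key A hk, MonomialOrder.lex.coeff_eq_zero_of_lt, mul_zero]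
        refine lt_of_le_of_ne (hk2 A hA hk) fun heq => hAne ?_
        obtain ⟨_, B, hB, hdeg⟩ := deg_vA e he j (bits A) (hbits A)
        have h3 : ev e B = ev e B2 := by
          rw [← hdeg, ← hdeg2]
          exact MonomialOrder.lex.toSyn.injective heq
        have h4 := ev_inj e hinj B B2 h3
        funext i
        apply Subtype.ext
        apply List.ofFn_injective
        refine flip_inj j _ _ (A i).2 (A2 i).2 ?_
        rw [← hB i, ← hB2 i, h4]
      · rw [coeff_eq_zero_of_totalDegree_lt, mul_zero]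
        refine lt_of_le_of_lt (totalDegree_mul _ _) ?_
        have h1 := (hom_uA e j (bits A)).totalDegree_le
        have h2 := hk1 A hA
        have : ∑ i ∈ b.support, b i = b.degree := rfl
        rw [this]
        omega
  · simp

/-- the weight bound -/
theorem weight_bound (he : ∀ i, StrictMono (e i)) (hinj : Function.Injective2 e) (j : ℕ)
    (g : MvPolynomial σ (ZMod 2)) (hg : g.totalDegree < r * 2 ^ j) :
    Fintype.card {A : Fin m → Bool // Fj j (List.ofFn A)} ^ r ≤
      Fintype.card {y : σ → ZMod 2 // eval y (fd e j) ≠ eval y g} := by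
  classical
  let φ : (Fin r → {A : Fin m → Bool // Fj j (List.ofFn A)}) →
      ({y : σ → ZMod 2 // eval y (fd e j) ≠ eval y g} → ZMod 2) :=
    fun A y => eval y.1 ((fd e j - g) * uA e j (fun i => (A i).1))
  have hli : LinearIndependent (ZMod 2) φ := by
    rw [Fintype.linearIndependent_iff]
    intro c hc
    refine comb_eq_zero e he hinj j g hg c fun y => ?_
    rw [map_sum]
    by_cases hy : eval y (fd e j) = eval y g
    · refine Finset.sum_eq_zero fun A _ => ?_
      rw [map_mul, map_mul, map_sub, hy, sub_self, zero_mul, mul_zero]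
    · have := congrFun hc ⟨y, hy⟩
      simp only [Finset.sum_apply, Pi.smul_apply, Pi.zero_apply, smul_eq_mul, φ] at this
      simpa using this
  have := hli.fintype_card_le_finrank
  rwa [Module.finrank_fintype_fun_eq_card, Fintype.card_fun, Fintype.card_fin] at this

end main

end blocks

end P346
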